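import Vale.Agent.Lib.P262L.Split2

namespace Vale.Agent.Lib.P262L

open Finset
open Vale.Agent.Lib.P262

section Cases

variable {ι D : Type} [DecidableEq ι] [Fintype D] [DecidableEq D]

/-- Facts on the thin coordinates. -/
lemma thin_en_le {z : ι → D → ℝ} {Λ : D → ℝ} (hΛ : ∀ a, 0 ≤ Λ a) (p : Par (Fintype.card D))
    {j : ℕ} {s : Finset ι} (hO : OO z Λ p.A p.A j s) :
    ∀ a ∈ Th Λ p.μ j, En z s a ≤ 2 ^ p.K := fun a ha =>
  (En_le_two_mu hΛ p.A_pos p.A_pos.le p.μ_ge_A2 p.μ_ge_2A2 hO ha).trans p.hμK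

lemma Xi_s_le {z : ι → D → ℝ} {Λ : D → ℝ} (hΛ : ∀ a, 0 ≤ Λ a) (p : Par (Fintype.card D))
    {j : ℕ} {s : Finset ι} (hO : OO z Λ p.A p.A j s) :
    Xi z (Th Λ p.μ j) s ≤ 18 * ∑ i ∈ s, wt z p.K (Th Λ p.μ j) s i :=
  Xi_le_wt z p.K _ subset_rfl (fun a _ => by linarith) (thin_en_le hΛ p hO)

lemma Xi_erase_le {z : ι → D → ℝ} (hz : ∀ i, ∑ a, z i a ^ 2 ≤ 1) {Λ : D → ℝ}
    (hΛ : ∀ a, 0 ≤ Λ a) (p : Par (Fintype.card D)) {j : ℕ} {s : Finset ι} {i₀ : ι} (hi₀ : i₀ ∈ s)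
    (hO : OO z Λ p.A p.A j s) :
    Xi z (Th Λ p.μ j) (s.erase i₀) ≤ 18 * ∑ i ∈ s.erase i₀, wt z p.K (Th Λ p.μ j) s i := by
  refine Xi_le_wt z p.K _ (Finset.erase_subset _ _) (fun a _ => ?_) (thin_en_le hΛ p hO)
  have h1 : En z s a = En z (s.erase i₀) a + z i₀ a ^ 2 := by
    simp only [En]
    rw [Finset.sum_erase_add _ _ hi₀]
  have h2 : z i₀ a ^ 2 ≤ 1 :=
    (Finset.single_le_sum (f := fun a => z i₀ a ^ 2) (fun _ _ => sq_nonneg _)
      (Finset.mem_univ a)).trans (hz i₀)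
  linarith

/-- Case of two heavy atoms. -/
lemma node_two {z : ι → D → ℝ} (hz : ∀ i, ∑ a, z i a ^ 2 ≤ 1) {Λ : D → ℝ}
    (hΛ : ∀ a, 0 ≤ Λ a) (p : Par (Fintype.card D)) {j : ℕ} {s : Finset ι} {P : D → ℝ}
    (hInv : Inv z Λ p j s P) {i₁ i₂ : ι} (hi₁ : i₁ ∈ s) (hi₂ : i₂ ∈ s) (hne : i₁ ≠ i₂)
    (hw₁ : ∑ i ∈ s, wt z p.K (Th Λ p.μ j) s i ≤ p.C₅ * wt z p.K (Th Λ p.μ j) s i₁)
    (hw₂ : ∑ i ∈ s, wt z p.K (Th Λ p.μ j) s i ≤ p.C₅ * wt z p.K (Th Λ p.μ j) s i₂)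
    (hsign : ∑ a ∈ Th Λ p.μ j, ((P a + (P a + ∑ i ∈ s, z i a)) / 2) * (z i₁ a - z i₂ a) ≤ 0) :
    ∃ A B : Finset ι, Disjoint A B ∧ A ∪ B = s ∧ A.card < s.card ∧ B.card < s.card ∧
      Inv z Λ p (j + 1) A P ∧ Inv z Λ p (j + 1) B (fun a => P a + ∑ i ∈ A, z i a) := by
  set S := Th Λ p.μ j with hS
  set w := wt z p.K S s with hw
  set W := ∑ i ∈ s, w i with hW
  have hw0 : ∀ i, 0 ≤ w i := fun i => wt_nonneg z p.K S s i
  have hW0 : 0 ≤ W := Finset.sum_nonneg (fun i _ => hw0 i)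
  set R := s \ {i₁, i₂} with hR
  have hRs : R ⊆ s := Finset.sdiff_subset
  have hpair : ({i₁, i₂} : Finset ι) ⊆ s := by
    intro i hi
    simp only [Finset.mem_insert, Finset.mem_singleton] at hi
    rcases hi with rfl | rfl <;> assumption
  have hXY : Disjoint ({i₁} : Finset ι) {i₂} := by simpa using hne
  have hU : ({i₁} : Finset ι) ∪ {i₂} = s \ R := by
    rw [hR, Finset.sdiff_sdiff_eq_self hpair]
    rfl
  have hwR : ∀ i ∈ R, 0 ≤ w i ∧ w i ≤ W := fun i hi =>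
    ⟨hw0 i, Finset.single_le_sum (f := w) (fun i _ => hw0 i) (hRs hi)⟩
  obtain ⟨Ar, Br, hAr, hBr, -, -, -, -, hstep⟩ := split_step hz hΛ p hInv hRs hXY hU (by simp) w W
    hW0 hwR
  have hO := hInv.1
  have hXi := Xi_s_le hΛ p hO
  have hXiR : Xi z S R ≤ Xi z S s := Xi_mono z S hRs
  have hz₁ := sum_z_le_Xi hz S hi₁
  have hz₂ := sum_z_le_Xi hz S hi₂
  set M0 : ℝ := p.M with hM0
  have hM7 : 7 ≤ M0 := p.M_ge
  set c : D → ℝ := fun a => (P a + (P a + ∑ i ∈ s, z i a)) / 2 with hc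
  have hy : ∑ a ∈ S, (c a + ((1 / 2) * ∑ i ∈ ({i₁} : Finset ι), z i a
        - (1 / 2) * ∑ i ∈ ({i₂} : Finset ι), z i a)) ^ 2
      ≤ ∑ a ∈ S, c a ^ 2 + 18 * W := by
    simp only [Finset.sum_singleton]
    have h1 : ∑ a ∈ S, (c a + ((1 / 2) * z i₁ a - (1 / 2) * z i₂ a)) ^ 2
        ≤ ∑ a ∈ S, (c a ^ 2 + c a * (z i₁ a - z i₂ a) + (1 / 2) * (z i₁ a ^ 2 + z i₂ a ^ 2)) := by
      refine Finset.sum_le_sum (fun a _ => ?_)
      nlinarith [sq_nonneg (z i₁ a + z i₂ a)]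
    refine h1.trans ?_
    rw [Finset.sum_add_distrib, Finset.sum_add_distrib, ← Finset.mul_sum, Finset.sum_add_distrib]
    have hs' : ∑ a ∈ S, c a * (z i₁ a - z i₂ a) ≤ 0 := hsign
    linarith
  have hβ := p.hβA
  have hC₅ := p.C₅_pos
  have hkey : ∀ pay : ℝ, W ≤ p.C₅ * pay →
      (18 + 576 * M0 ^ 2) * W ≤ p.β₁ * pay := by
    intro pay hpay
    have h1 : (18 + 576 * M0 ^ 2) * W ≤ (18 + 576 * M0 ^ 2) * (p.C₅ * pay) :=
      mul_le_mul_of_nonneg_left hpay (by positivity)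
    have hpay0 : 0 ≤ pay := by
      by_contra hcon
      push Not at hcon
      have := mul_neg_of_pos_of_neg hC₅ hcon
      linarith
    have h2 : p.C₅ * (18 + 576 * M0 ^ 2) * pay ≤ p.β₁ * pay :=
      mul_le_mul_of_nonneg_right hβ hpay0
    nlinarith
  have hXibound : 32 * M0 ^ 2 * Xi z S R ≤ 576 * M0 ^ 2 * W := by
    have h1 : Xi z S R ≤ 18 * W := hXiR.trans hXi
    have h2 : (0 : ℝ) ≤ 32 * M0 ^ 2 := by positivity
    nlinarith [mul_le_mul_of_nonneg_left h1 h2]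
  have hdRs : Disjoint Ar Br := by
    rw [hBr]; exact Finset.disjoint_sdiff
  have hi₁R : i₁ ∉ R := by simp [hR]
  have hi₂R : i₂ ∉ R := by simp [hR]
  have hBrR : Br ⊆ R := by rw [hBr]; exact Finset.sdiff_subset
  have hnotA : i₂ ∉ Ar ∪ {i₁} := by
    simp only [Finset.mem_union, Finset.mem_singleton, not_or]
    exact ⟨fun h => hi₂R (hAr h), fun h => hne h.symm⟩
  have hnotB : i₁ ∉ Br ∪ {i₂} := by
    simp only [Finset.mem_union, Finset.mem_singleton, not_or]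
    exact ⟨fun h => hi₁R (hBrR h), hne⟩
  have hAs : Ar ∪ {i₁} ⊆ s :=
    Finset.union_subset (hAr.trans hRs) (Finset.singleton_subset_iff.mpr hi₁)
  have hBs : Br ∪ {i₂} ⊆ s :=
    Finset.union_subset (hBrR.trans hRs) (Finset.singleton_subset_iff.mpr hi₂)
  have hpayA : w i₂ ≤ ∑ i ∈ s \ (Ar ∪ {i₁}), w i :=
    Finset.single_le_sum (f := w) (fun i _ => hw0 i) (Finset.mem_sdiff.mpr ⟨hi₂, hnotA⟩)
  have hpayB : w i₁ ≤ ∑ i ∈ s \ (Br ∪ {i₂}), w i :=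
    Finset.single_le_sum (f := w) (fun i _ => hw0 i) (Finset.mem_sdiff.mpr ⟨hi₁, hnotB⟩)
  have hβ₁ := p.β₁_pos
  obtain ⟨hIA, hIB⟩ := hstep
    (by
      have h1 := hkey _ hw₂
      have h2 := mul_le_mul_of_nonneg_left hpayA hβ₁.le
      have e : (18 + 576 * M0 ^ 2) * W = 18 * W + 576 * M0 ^ 2 * W := by ring
      linarith)
    (by
      have h1 := hkey _ hw₁
      have h2 := mul_le_mul_of_nonneg_left hpayB hβ₁.le
      have e : (18 + 576 * M0 ^ 2) * W = 18 * W + 576 * M0 ^ 2 * W := by ring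
      linarith)
  refine ⟨Ar ∪ {i₁}, Br ∪ {i₂}, ?_, ?_, ?_, ?_, hIA, hIB⟩
  · rw [Finset.disjoint_union_left, Finset.disjoint_union_right, Finset.disjoint_union_right]
    refine ⟨⟨hdRs, ?_⟩, ?_, hXY⟩
    · exact Finset.disjoint_singleton_right.mpr (fun h => hi₂R (hAr h))
    · exact Finset.disjoint_singleton_left.mpr (fun h => hi₁R (hBrR h))
  · ext i
    simp only [Finset.mem_union, Finset.mem_singleton]
    constructor
    · rintro ((h | h) | (h | h))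
      · exact hRs (hAr h)
      · rw [h]; exact hi₁
      · exact hRs (hBrR h)
      · rw [h]; exact hi₂
    · intro h
      by_cases h1 : i ∈ R
      · by_cases h2 : i ∈ Ar
        · exact Or.inl (Or.inl h2)
        · refine Or.inr (Or.inl ?_)
          rw [hBr]
          exact Finset.mem_sdiff.mpr ⟨h1, h2⟩
      · have h3 : i ∈ ({i₁, i₂} : Finset ι) := by
          by_contra hcon
          exact h1 (Finset.mem_sdiff.mpr ⟨h, hcon⟩)
        simp only [Finset.mem_insert, Finset.mem_singleton] at h3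
        rcases h3 with h3 | h3
        · exact Or.inl (Or.inr h3)
        · exact Or.inr (Or.inr h3)
  · refine Finset.card_lt_card (Finset.ssubset_iff_subset_ne.mpr ⟨hAs, fun h => hnotA ?_⟩)
    rw [h]; exact hi₂
  · refine Finset.card_lt_card (Finset.ssubset_iff_subset_ne.mpr ⟨hBs, fun h => hnotB ?_⟩)
    rw [h]; exact hi₁

omit [Fintype D] [DecidableEq D] in
/-- Bookkeeping for the children of a split. -/
lemma split_sets {s R X Y Ar Br : Finset ι} (hRs : R ⊆ s) (hXY : Disjoint X Y)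
    (hU : X ∪ Y = s \ R) (hAr : Ar ⊆ R) (hBr : Br = R \ Ar) :
    Disjoint (Ar ∪ X) (Br ∪ Y) ∧ (Ar ∪ X) ∪ (Br ∪ Y) = s ∧ Ar ∪ X ⊆ s ∧ Br ∪ Y ⊆ s ∧
      Br ⊆ s \ (Ar ∪ X) ∧ Ar ⊆ s \ (Br ∪ Y) := by
  have hXsub : X ⊆ s \ R := by rw [← hU]; exact Finset.subset_union_left
  have hYsub : Y ⊆ s \ R := by rw [← hU]; exact Finset.subset_union_right
  have hBrR : Br ⊆ R := by rw [hBr]; exact Finset.sdiff_subset
  have hAB : Disjoint Ar Br := by
    rw [hBr]; exact Finset.disjoint_sdiff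
  have hdX : ∀ T : Finset ι, T ⊆ R → Disjoint T X := fun T hT =>
    Finset.disjoint_of_subset_left hT (Finset.disjoint_of_subset_right hXsub Finset.disjoint_sdiff)
  have hdY : ∀ T : Finset ι, T ⊆ R → Disjoint T Y := fun T hT =>
    Finset.disjoint_of_subset_left hT (Finset.disjoint_of_subset_right hYsub Finset.disjoint_sdiff)
  have hAs : Ar ∪ X ⊆ s :=
    Finset.union_subset (hAr.trans hRs) (hXsub.trans Finset.sdiff_subset)
  have hBs : Br ∪ Y ⊆ s :=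
    Finset.union_subset (hBrR.trans hRs) (hYsub.trans Finset.sdiff_subset)
  have hdisj : Disjoint (Ar ∪ X) (Br ∪ Y) := by
    rw [Finset.disjoint_union_left, Finset.disjoint_union_right, Finset.disjoint_union_right]
    exact ⟨⟨hAB, hdY Ar hAr⟩, (hdX Br hBrR).symm, hXY⟩
  refine ⟨hdisj, ?_, hAs, hBs, ?_, ?_⟩
  · ext i
    simp only [Finset.mem_union]
    constructor
    · rintro ((h | h) | (h | h))
      · exact hRs (hAr h)
      · exact (Finset.mem_sdiff.mp (hXsub h)).1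
      · exact hRs (hBrR h)
      · exact (Finset.mem_sdiff.mp (hYsub h)).1
    · intro h
      by_cases h1 : i ∈ R
      · by_cases h2 : i ∈ Ar
        · exact Or.inl (Or.inl h2)
        · refine Or.inr (Or.inl ?_)
          rw [hBr]
          exact Finset.mem_sdiff.mpr ⟨h1, h2⟩
      · have h3 : i ∈ X ∪ Y := by
          rw [hU]
          exact Finset.mem_sdiff.mpr ⟨h, h1⟩
        rcases Finset.mem_union.mp h3 with h4 | h4
        · exact Or.inl (Or.inr h4)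
        · exact Or.inr (Or.inr h4)
  · intro i hi
    refine Finset.mem_sdiff.mpr ⟨hRs (hBrR hi), fun h => ?_⟩
    exact Finset.disjoint_left.mp hdisj h (Finset.mem_union_left _ hi)
  · intro i hi
    refine Finset.mem_sdiff.mpr ⟨hRs (hAr hi), fun h => ?_⟩
    exact Finset.disjoint_left.mp hdisj (Finset.mem_union_left _ hi) h

/-- A split with at most one heavy atom, under a condition on the pay. -/
lemma node_split_gen {z : ι → D → ℝ} (hz : ∀ i, ∑ a, z i a ^ 2 ≤ 1) {Λ : D → ℝ}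
    (hΛ : ∀ a, 0 ≤ Λ a) (p : Par (Fintype.card D)) {j : ℕ} {s R X Y : Finset ι} {P : D → ℝ}
    (hInv : Inv z Λ p j s P) (hRs : R ⊆ s) (hXY : Disjoint X Y) (hU : X ∪ Y = s \ R)
    (hcard : X.card + Y.card ≤ 1) (hcount : 5 * p.M + 2 ≤ (s.card : ℝ)) (wm : ℝ)
    (hwm0 : 0 ≤ wm) (hw : ∀ i ∈ R, wt z p.K (Th Λ p.μ j) s i ≤ wm)
    (hcond : ∀ pay : ℝ, 0 ≤ pay →
      7 / 16 * ∑ i ∈ R, wt z p.K (Th Λ p.μ j) s i - 2 * p.M * wm ≤ pay →
      ∑ a ∈ Th Λ p.μ j, ((P a + (P a + ∑ i ∈ s, z i a)) / 2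
            + ((1 / 2) * ∑ i ∈ X, z i a - (1 / 2) * ∑ i ∈ Y, z i a)) ^ 2
          + 32 * p.M ^ 2 * Xi z (Th Λ p.μ j) R
          ≤ ∑ a ∈ Th Λ p.μ j, ((P a + (P a + ∑ i ∈ s, z i a)) / 2) ^ 2 + p.β₁ * pay) :
    ∃ A B : Finset ι, Disjoint A B ∧ A ∪ B = s ∧ A.card < s.card ∧ B.card < s.card ∧
      Inv z Λ p (j + 1) A P ∧ Inv z Λ p (j + 1) B (fun a => P a + ∑ i ∈ A, z i a) := by
  set S := Th Λ p.μ j with hS
  set w := wt z p.K S s with hwdef
  have hw0 : ∀ i, 0 ≤ w i := fun i => wt_nonneg z p.K S s i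
  obtain ⟨Ar, Br, hAr, hBr, hc1, hc2, hw1, hw2, hstep⟩ := split_step hz hΛ p hInv hRs hXY hU
    (by omega) w wm hwm0 (fun i hi => ⟨hw0 i, hw i hi⟩)
  obtain ⟨hdisj, hun, hAs, hBs, hBrsub, hArsub⟩ := split_sets hRs hXY hU hAr hBr
  set M0 : ℝ := p.M with hM0
  have hM7 : 7 ≤ M0 := p.M_ge
  have hpayA : ∑ i ∈ Br, w i ≤ ∑ i ∈ s \ (Ar ∪ X), w i :=
    Finset.sum_le_sum_of_subset_of_nonneg hBrsub (fun i _ _ => hw0 i)
  have hpayB : ∑ i ∈ Ar, w i ≤ ∑ i ∈ s \ (Br ∪ Y), w i :=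
    Finset.sum_le_sum_of_subset_of_nonneg hArsub (fun i _ _ => hw0 i)
  have hnn : ∀ T : Finset ι, 0 ≤ ∑ i ∈ T, w i := fun T => Finset.sum_nonneg (fun i _ => hw0 i)
  obtain ⟨hIA, hIB⟩ := hstep
    (hcond _ (hnn _) (hw2.trans hpayA)) (hcond _ (hnn _) (hw1.trans hpayB))
  -- sizes
  have hRcard : (s.card : ℝ) ≤ (R.card : ℝ) + 1 := by
    have h1 : (s \ R).card ≤ 1 := by
      rw [← hU]
      exact (Finset.card_union_le _ _).trans hcard
    have h2 : s.card = (s \ R).card + R.card := (Finset.card_sdiff_add_card_eq_card hRs).symm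
    have h3 : s.card ≤ R.card + 1 := by omega
    exact_mod_cast h3
  have hRlow : 2 * M0 < 7 / 16 * (R.card : ℝ) := by nlinarith
  have hAr1 : 0 < Ar.card := by
    have : (0 : ℝ) < Ar.card := by linarith
    exact_mod_cast this
  have hBr1 : 0 < Br.card := by
    have : (0 : ℝ) < Br.card := by linarith
    exact_mod_cast this
  refine ⟨Ar ∪ X, Br ∪ Y, hdisj, hun, ?_, ?_, hIA, hIB⟩
  · have h1 : (Ar ∪ X).card + (Br ∪ Y).card = s.card := by
      rw [← Finset.card_union_of_disjoint hdisj, hun]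
    have h2 : Br.card ≤ (Br ∪ Y).card := Finset.card_le_card Finset.subset_union_left
    omega
  · have h1 : (Ar ∪ X).card + (Br ∪ Y).card = s.card := by
      rw [← Finset.card_union_of_disjoint hdisj, hun]
    have h2 : Ar.card ≤ (Ar ∪ X).card := Finset.card_le_card Finset.subset_union_left
    omega

omit [DecidableEq ι] [Fintype D] [DecidableEq D] in
lemma y_sq (S : Finset D) (c x : D → ℝ) (ε : ℝ) :
    ∑ a ∈ S, (c a + ε * x a) ^ 2
      = ∑ a ∈ S, c a ^ 2 + 2 * ε * ∑ a ∈ S, c a * x a + ε ^ 2 * ∑ a ∈ S, x a ^ 2 := by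
  rw [Finset.mul_sum, Finset.mul_sum, ← Finset.sum_add_distrib, ← Finset.sum_add_distrib]
  exact Finset.sum_congr rfl (fun a _ => by ring)

/-- No heavy atom. -/
lemma node_none {z : ι → D → ℝ} (hz : ∀ i, ∑ a, z i a ^ 2 ≤ 1) {Λ : D → ℝ}
    (hΛ : ∀ a, 0 ≤ Λ a) (p : Par (Fintype.card D)) {j : ℕ} {s : Finset ι} {P : D → ℝ}
    (hInv : Inv z Λ p j s P) (hcount : 5 * p.M + 2 ≤ (s.card : ℝ))
    (hlight : ∀ i ∈ s, wt z p.K (Th Λ p.μ j) s i
      ≤ (∑ i ∈ s, wt z p.K (Th Λ p.μ j) s i) / p.C₅) :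
    ∃ A B : Finset ι, Disjoint A B ∧ A ∪ B = s ∧ A.card < s.card ∧ B.card < s.card ∧
      Inv z Λ p (j + 1) A P ∧ Inv z Λ p (j + 1) B (fun a => P a + ∑ i ∈ A, z i a) := by
  set S := Th Λ p.μ j with hS
  set W := ∑ i ∈ s, wt z p.K S s i with hW
  have hW0 : 0 ≤ W := Finset.sum_nonneg (fun i _ => wt_nonneg z p.K S s i)
  have hC₅ := p.C₅_pos
  have hU : (∅ : Finset ι) ∪ ∅ = s \ s := by simp
  refine node_split_gen hz hΛ p hInv subset_rfl (Finset.disjoint_empty_left _) hU (by simp) hcount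
    (W / p.C₅) (by positivity) hlight ?_
  intro pay hpay0 hpay
  simp only [Finset.sum_empty, mul_zero, sub_self, add_zero]
  set M0 : ℝ := p.M with hM0
  have hM7 : 7 ≤ M0 := p.M_ge
  have h1 : Xi z S s ≤ 18 * W := Xi_s_le hΛ p hInv.1
  have h2 : 2 * M0 * (W / p.C₅) ≤ 3 / 16 * W := by
    have h3 : 2 * M0 * (W / p.C₅) = (2 * M0 / p.C₅) * W := by ring
    rw [h3]
    refine mul_le_mul_of_nonneg_right ?_ hW0
    rw [div_le_iff₀ hC₅]
    have h4 := p.hC₅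
    have h5 : M0 ≤ M0 ^ 3 := by nlinarith [sq_nonneg M0, mul_pos (by linarith : 0 < M0) (by linarith : 0 < M0)]
    nlinarith
  have hpayW : W / 4 ≤ pay := by linarith
  have hβ := p.hβB
  have h6 : 2304 * M0 ^ 2 ≤ p.β₁ := by
    have h7 : 0 ≤ M0 ^ 2 := sq_nonneg M0
    nlinarith [mul_nonneg h7 h7]
  have h8 : 576 * M0 ^ 2 * W ≤ p.β₁ * pay := by
    have h9 : (2304 * M0 ^ 2) * (W / 4) ≤ p.β₁ * pay :=
      mul_le_mul h6 hpayW (by positivity) p.β₁_pos.le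
    nlinarith
  have h10 : 32 * M0 ^ 2 * Xi z S s ≤ 576 * M0 ^ 2 * W := by
    have h2' : (0 : ℝ) ≤ 32 * M0 ^ 2 := by positivity
    nlinarith [mul_le_mul_of_nonneg_left h1 h2']
  linarith

/-- One heavy atom, enough weight in the rest: balanced split. -/
lemma node_one_bal {z : ι → D → ℝ} (hz : ∀ i, ∑ a, z i a ^ 2 ≤ 1) {Λ : D → ℝ}
    (hΛ : ∀ a, 0 ≤ Λ a) (p : Par (Fintype.card D)) {j : ℕ} {s X Y : Finset ι} {P : D → ℝ}
    (hInv : Inv z Λ p j s P) {i₀ : ι} (hi₀ : i₀ ∈ s) (ε : ℝ) (hε : ε = 1 / 2 ∨ ε = -(1 / 2))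
    (hXY : Disjoint X Y) (hU : X ∪ Y = s \ s.erase i₀) (hcard : X.card + Y.card ≤ 1)
    (huu : ∀ a, (1 / 2) * ∑ i ∈ X, z i a - (1 / 2) * ∑ i ∈ Y, z i a = ε * z i₀ a)
    (hsign : ε * ∑ a ∈ Th Λ p.μ j, ((P a + (P a + ∑ i ∈ s, z i a)) / 2) * z i₀ a ≤ 0)
    (hcount : 5 * p.M + 2 ≤ (s.card : ℝ))
    (hlight : ∀ i ∈ s.erase i₀, wt z p.K (Th Λ p.μ j) s i
      ≤ (∑ i ∈ s, wt z p.K (Th Λ p.μ j) s i) / p.C₅)
    (hbal : ∑ i ∈ s, wt z p.K (Th Λ p.μ j) s i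
      ≤ 16 * (576 * p.M ^ 2) * ∑ i ∈ s.erase i₀, wt z p.K (Th Λ p.μ j) s i) :
    ∃ A B : Finset ι, Disjoint A B ∧ A ∪ B = s ∧ A.card < s.card ∧ B.card < s.card ∧
      Inv z Λ p (j + 1) A P ∧ Inv z Λ p (j + 1) B (fun a => P a + ∑ i ∈ A, z i a) := by
  set S := Th Λ p.μ j with hS
  set w := wt z p.K S s with hw
  set W := ∑ i ∈ s, w i with hW
  set r := ∑ i ∈ s.erase i₀, w i with hr
  have hW0 : 0 ≤ W := Finset.sum_nonneg (fun i _ => wt_nonneg z p.K S s i)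
  have hr0 : 0 ≤ r := Finset.sum_nonneg (fun i _ => wt_nonneg z p.K S s i)
  have hC₅ := p.C₅_pos
  refine node_split_gen hz hΛ p hInv (Finset.erase_subset _ _) hXY hU hcard hcount
    (W / p.C₅) (by positivity) hlight ?_
  intro pay hpay0 hpay
  simp_rw [huu]
  rw [y_sq]
  set M0 : ℝ := p.M with hM0
  have hM7 : 7 ≤ M0 := p.M_ge
  have hM2 : 49 ≤ M0 ^ 2 := by nlinarith
  set c : D → ℝ := fun a => (P a + (P a + ∑ i ∈ s, z i a)) / 2 with hc
  have hε2 : ε ^ 2 = 1 / 4 := by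
    rcases hε with h | h <;> rw [h] <;> norm_num
  have h1 : Xi z S s ≤ 18 * W := Xi_s_le hΛ p hInv.1
  have h1' : Xi z S (s.erase i₀) ≤ Xi z S s := Xi_mono z S (Finset.erase_subset _ _)
  have hζ : ∑ a ∈ S, z i₀ a ^ 2 ≤ Xi z S s := sum_z_le_Xi hz S hi₀
  -- the pay is a quarter of the rest
  have h2 : 2 * M0 * (W / p.C₅) ≤ 3 / 16 * r := by
    rw [mul_div_assoc', div_le_iff₀ hC₅]
    have h3 := p.hC₅
    have h4 : 2 * M0 * W ≤ 2 * M0 * (16 * (576 * M0 ^ 2) * r) :=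
      mul_le_mul_of_nonneg_left hbal (by positivity)
    have h5 : (3 / 16 * r) * (98304 * M0 ^ 3) ≤ (3 / 16 * r) * p.C₅ :=
      mul_le_mul_of_nonneg_left h3 (by positivity)
    have h6 : 2 * M0 * (16 * (576 * M0 ^ 2) * r) = (3 / 16 * r) * (98304 * M0 ^ 3) := by ring
    linarith
  have hpayr : r / 4 ≤ pay := by linarith
  have hβ := p.hβB
  -- final estimate
  have h7 : (5 + 576 * M0 ^ 2) * W ≤ (5 + 576 * M0 ^ 2) * (16 * (576 * M0 ^ 2) * r) :=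
    mul_le_mul_of_nonneg_left hbal (by positivity)
  have h8 : (36864 * M0 ^ 2 * (5 + 576 * M0 ^ 2)) * (r / 4) ≤ p.β₁ * pay :=
    mul_le_mul hβ hpayr (by positivity) p.β₁_pos.le
  have h9 : (5 + 576 * M0 ^ 2) * (16 * (576 * M0 ^ 2) * r)
      = (36864 * M0 ^ 2 * (5 + 576 * M0 ^ 2)) * (r / 4) := by ring
  have h10 : 32 * M0 ^ 2 * Xi z S (s.erase i₀) ≤ 576 * M0 ^ 2 * W := by
    have h2' : (0 : ℝ) ≤ 32 * M0 ^ 2 := by positivity
    nlinarith [mul_le_mul_of_nonneg_left (h1'.trans h1) h2']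
  have h11 : 2 * ε * ∑ a ∈ S, c a * z i₀ a ≤ 0 := by
    have : 2 * ε * ∑ a ∈ S, c a * z i₀ a = 2 * (ε * ∑ a ∈ S, c a * z i₀ a) := by ring
    rw [this]
    linarith
  rw [hε2]
  have h12 : 1 / 4 * ∑ a ∈ S, z i₀ a ^ 2 ≤ 5 * W := by linarith
  nlinarith

/-- One heavy atom whose position gains by itself. -/
lemma node_one_gain {z : ι → D → ℝ} (hz : ∀ i, ∑ a, z i a ^ 2 ≤ 1) {Λ : D → ℝ}
    (hΛ : ∀ a, 0 ≤ Λ a) (p : Par (Fintype.card D)) {j : ℕ} {s X Y : Finset ι} {P : D → ℝ}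
    (hInv : Inv z Λ p j s P) {i₀ : ι} (ε : ℝ) (hε : ε = 1 / 2 ∨ ε = -(1 / 2))
    (hXY : Disjoint X Y) (hU : X ∪ Y = s \ s.erase i₀) (hcard : X.card + Y.card ≤ 1)
    (huu : ∀ a, (1 / 2) * ∑ i ∈ X, z i a - (1 / 2) * ∑ i ∈ Y, z i a = ε * z i₀ a)
    (hsign : 2 * ε * ∑ a ∈ Th Λ p.μ j, ((P a + (P a + ∑ i ∈ s, z i a)) / 2) * z i₀ a
      ≤ -(1 / 2) * ∑ a ∈ Th Λ p.μ j, z i₀ a ^ 2)
    (hcount : 5 * p.M + 2 ≤ (s.card : ℝ))
    (hgain : 32 * p.M ^ 2 * Xi z (Th Λ p.μ j) (s.erase i₀)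
      ≤ (1 / 4) * ∑ a ∈ Th Λ p.μ j, z i₀ a ^ 2) :
    ∃ A B : Finset ι, Disjoint A B ∧ A ∪ B = s ∧ A.card < s.card ∧ B.card < s.card ∧
      Inv z Λ p (j + 1) A P ∧ Inv z Λ p (j + 1) B (fun a => P a + ∑ i ∈ A, z i a) := by
  set S := Th Λ p.μ j with hS
  set w := wt z p.K S s with hw
  set W := ∑ i ∈ s, w i with hW
  have hw0 : ∀ i, 0 ≤ w i := fun i => wt_nonneg z p.K S s i
  have hW0 : 0 ≤ W := Finset.sum_nonneg (fun i _ => hw0 i)
  refine node_split_gen hz hΛ p hInv (Finset.erase_subset _ _) hXY hU hcard hcount W hW0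
    (fun i hi => Finset.single_le_sum (f := w) (fun i _ => hw0 i) (Finset.erase_subset _ _ hi)) ?_
  intro pay hpay0 _
  simp_rw [huu]
  rw [y_sq]
  have hε2 : ε ^ 2 = 1 / 4 := by
    rcases hε with h | h <;> rw [h] <;> norm_num
  rw [hε2]
  have h1 := mul_nonneg p.β₁_pos.le hpay0
  linarith

omit [Fintype D] [DecidableEq D] in
lemma sdiff_erase_eq {s : Finset ι} {i₀ : ι} (hi₀ : i₀ ∈ s) : s \ s.erase i₀ = {i₀} := by
  ext i
  simp only [Finset.mem_sdiff, Finset.mem_erase, Finset.mem_singleton, not_and, ne_eq]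
  constructor
  · rintro ⟨h1, h2⟩
    by_contra hne
    exact h2 hne h1
  · rintro rfl
    exact ⟨hi₀, fun h => absurd rfl h⟩

/-- **The node step.** -/
theorem node_step {z : ι → D → ℝ} (hz : ∀ i, ∑ a, z i a ^ 2 ≤ 1) {Λ : D → ℝ}
    (hΛ : ∀ a, 0 ≤ Λ a) (p : Par (Fintype.card D)) {j : ℕ} {s : Finset ι} {P : D → ℝ}
    (hInv : Inv z Λ p j s P) (hcount : 5 * p.M + 2 ≤ (s.card : ℝ)) :
    (∃ A B : Finset ι, Disjoint A B ∧ A ∪ B = s ∧ A.card < s.card ∧ B.card < s.card ∧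
      Inv z Λ p (j + 1) A P ∧ Inv z Λ p (j + 1) B (fun a => P a + ∑ i ∈ A, z i a)) ∨
    (∃ (A B : Finset ι) (i₀ : ι), i₀ ∈ s ∧ Disjoint A B ∧ A ∪ B = s.erase i₀ ∧
      Inv z Λ p (j + 1) A P ∧ Inv z Λ p (j + 1) B (fun a => P a + ∑ i ∈ A, z i a + z i₀ a)) := by
  set S := Th Λ p.μ j with hS
  set w := wt z p.K S s with hw
  set W := ∑ i ∈ s, w i with hW
  have hw0 : ∀ i, 0 ≤ w i := fun i => wt_nonneg z p.K S s i
  have hW0 : 0 ≤ W := Finset.sum_nonneg (fun i _ => hw0 i)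
  have hC₅ := p.C₅_pos
  set c : D → ℝ := fun a => (P a + (P a + ∑ i ∈ s, z i a)) / 2 with hc
  set H := s.filter (fun i => 0 < w i ∧ W ≤ p.C₅ * w i) with hH
  have hnotH : ∀ i ∈ s, i ∉ H → w i ≤ W / p.C₅ := by
    intro i hi hiH
    rw [le_div_iff₀ hC₅]
    by_contra hcon
    push Not at hcon
    have h1 : 0 < w i := by
      by_contra h2
      have h3 : w i = 0 := le_antisymm (not_lt.mp h2) (hw0 i)
      rw [h3, zero_mul] at hcon
      linarith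
    exact hiH (Finset.mem_filter.mpr ⟨hi, h1, by linarith⟩)
  by_cases h2 : 1 < H.card
  · -- two heavy atoms
    left
    obtain ⟨a, ha, b, hb, hab⟩ := Finset.one_lt_card.mp h2
    obtain ⟨has, -, haW⟩ := Finset.mem_filter.mp ha
    obtain ⟨hbs, -, hbW⟩ := Finset.mem_filter.mp hb
    rcases le_total (∑ x ∈ S, c x * (z a x - z b x)) 0 with hsign | hsign
    · exact node_two hz hΛ p hInv has hbs hab haW hbW hsign
    · refine node_two hz hΛ p hInv hbs has hab.symm hbW haW ?_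
      have e : ∑ x ∈ S, c x * (z b x - z a x) = - ∑ x ∈ S, c x * (z a x - z b x) := by
        rw [← Finset.sum_neg_distrib]
        exact Finset.sum_congr rfl (fun x _ => by ring)
      show ∑ x ∈ S, c x * (z b x - z a x) ≤ 0
      rw [e]
      linarith
  have h1 : H.card ≤ 1 := by omega
  by_cases hne : H.Nonempty
  · obtain ⟨i₀, hi₀H⟩ := hne
    have hi₀ : i₀ ∈ s := (Finset.mem_filter.mp hi₀H).1
    have hlight : ∀ i ∈ s.erase i₀, w i ≤ W / p.C₅ := by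
      intro i hi
      obtain ⟨hne', his⟩ := Finset.mem_erase.mp hi
      refine hnotH i his (fun hiH => hne' ?_)
      exact Finset.card_le_one.mp h1 i hiH i₀ hi₀H
    set r := ∑ i ∈ s.erase i₀, w i with hr
    have hr0 : 0 ≤ r := Finset.sum_nonneg (fun i _ => hw0 i)
    have hWr : W = r + w i₀ := by
      rw [hW, hr, Finset.sum_erase_add _ _ hi₀]
    set M0 : ℝ := p.M with hM0
    have hM7 : 7 ≤ M0 := p.M_ge
    have hM2 : 49 ≤ M0 ^ 2 := by nlinarith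
    set C := ∑ a ∈ S, c a * z i₀ a with hC
    set ζ2 := ∑ a ∈ S, z i₀ a ^ 2 with hζ2
    have hζ0 : 0 ≤ ζ2 := Finset.sum_nonneg (fun a _ => sq_nonneg _)
    have hUl : ({i₀} : Finset ι) ∪ ∅ = s \ s.erase i₀ := by
      rw [sdiff_erase_eq hi₀]; simp
    have hUr : (∅ : Finset ι) ∪ {i₀} = s \ s.erase i₀ := by
      rw [sdiff_erase_eq hi₀]; simp
    have hul : ∀ a, (1 / 2) * ∑ i ∈ ({i₀} : Finset ι), z i a - (1 / 2) * ∑ i ∈ (∅ : Finset ι), z i a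
        = (1 / 2) * z i₀ a := fun a => by simp
    have hur : ∀ a, (1 / 2) * ∑ i ∈ (∅ : Finset ι), z i a - (1 / 2) * ∑ i ∈ ({i₀} : Finset ι), z i a
        = (-(1 / 2)) * z i₀ a := fun a => by simp
    by_cases hbal : W ≤ 16 * (576 * M0 ^ 2) * r
    · left
      rcases le_total C 0 with hsign | hsign
      · exact node_one_bal hz hΛ p hInv hi₀ (1 / 2) (Or.inl rfl) (Finset.disjoint_empty_right _) hUl
          (by simp) hul (by show (1 / 2 : ℝ) * C ≤ 0; linarith) hcount hlight hbal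
      · exact node_one_bal hz hΛ p hInv hi₀ (-(1 / 2)) (Or.inr rfl) (Finset.disjoint_empty_left _)
          hUr (by simp) hur (by show (-(1 / 2) : ℝ) * C ≤ 0; linarith) hcount hlight hbal
    · push Not at hbal
      have hXiR : Xi z S (s.erase i₀) ≤ 18 * r := Xi_erase_le hz hΛ p hi₀ hInv.1
      have hXis : Xi z S s ≤ 18 * W := Xi_s_le hΛ p hInv.1
      have hζXi : ζ2 ≤ Xi z S s := sum_z_le_Xi hz S hi₀
      have hM3 : (1 : ℝ) ≤ 16 * (576 * M0 ^ 2) := by nlinarith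
      have hrW : 2 * r ≤ W := by nlinarith
      have hwW : W ≤ 2 * w i₀ := by linarith
      have hwζ : w i₀ ≤ 2 * ζ2 := wt_le z p.K S s i₀
      have hgain : 32 * M0 ^ 2 * Xi z S (s.erase i₀) ≤ (1 / 4) * ζ2 := by
        have h3 : 32 * M0 ^ 2 * Xi z S (s.erase i₀) ≤ 32 * M0 ^ 2 * (18 * r) :=
          mul_le_mul_of_nonneg_left hXiR (by positivity)
        have h4 : 32 * M0 ^ 2 * (18 * r) = (16 * (576 * M0 ^ 2) * r) / 16 := by ring
        linarith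
      by_cases hC1 : (1 / 2) * ζ2 ≤ C
      · left
        exact node_one_gain hz hΛ p hInv (-(1 / 2)) (Or.inr rfl) (Finset.disjoint_empty_left _) hUr
          (by simp) hur (by show 2 * (-(1 / 2) : ℝ) * C ≤ -(1 / 2) * ζ2; linarith) hcount hgain
      by_cases hC2 : C ≤ -((1 / 2) * ζ2)
      · left
        exact node_one_gain hz hΛ p hInv (1 / 2) (Or.inl rfl) (Finset.disjoint_empty_right _) hUl
          (by simp) hul (by show 2 * (1 / 2 : ℝ) * C ≤ -(1 / 2) * ζ2; linarith) hcount hgain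
      · right
        push Not at hC1 hC2
        obtain ⟨Ar, Br, hAr, hBr, -, -, hstep⟩ := insert_step hz hΛ p hInv hi₀ w W hW0
          (fun i hi => ⟨hw0 i, Finset.single_le_sum (f := w) (fun i _ => hw0 i)
            (Finset.erase_subset _ _ hi)⟩)
        have hab : |C| ≤ (1 / 2) * ζ2 := abs_le.mpr ⟨by linarith, by linarith⟩
        have hcond : (5 / 4) * ζ2 + 56 * M0 ^ 2 * Xi z S (s.erase i₀) ≤ p.β₁ * w i₀ := by
          have h3 : 56 * M0 ^ 2 * Xi z S (s.erase i₀) ≤ 56 * M0 ^ 2 * (18 * W) :=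
            mul_le_mul_of_nonneg_left (by linarith) (by positivity)
          have h4 : (45 + 2016 * M0 ^ 2) * w i₀ ≤ p.β₁ * w i₀ :=
            mul_le_mul_of_nonneg_right p.hβC (hw0 i₀)
          have h5 : (22.5 + 1008 * M0 ^ 2) * W ≤ (22.5 + 1008 * M0 ^ 2) * (2 * w i₀) :=
            mul_le_mul_of_nonneg_left hwW (by positivity)
          nlinarith
        obtain ⟨hIA, hIB⟩ := hstep hab hcond
        refine ⟨Ar, Br, i₀, hi₀, ?_, ?_, hIA, hIB⟩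
        · rw [hBr]; exact Finset.disjoint_sdiff
        · rw [hBr]; exact Finset.union_sdiff_of_subset hAr
  · left
    have hH0 : H = ∅ := Finset.not_nonempty_iff_eq_empty.mp hne
    refine node_none hz hΛ p hInv hcount (fun i hi => hnotH i hi ?_)
    rw [hH0]
    exact Finset.notMem_empty i

end Cases

end Vale.Agent.Lib.P262L
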