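import Vale.Agent.Lib.P262L.Walk2
import Vale.Agent.Lib.P262.Rest

namespace Vale.Agent.Lib.P262L

open Finset
open Vale.Agent.Lib.P262

section Chain

variable {ι D : Type} [DecidableEq ι] [Fintype D] [DecidableEq D]

lemma eps_nonneg (z : ι → D → ℝ) (lo : Finset D) (i : ι) : 0 ≤ eps z lo i :=
  Finset.sum_nonneg (fun _ _ => sq_nonneg _)

/-- One stage of the chain: `N'` alive atoms are reduced to `N`, the whole-space increment has
squared norm at most `N'`, and the low block telescopes. -/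
theorem stage₂ (z : ι → D → ℝ) (R : Finset ι) (hz : ∀ i ∈ R, ∑ a, z i a ^ 2 ≤ 1)
    (c₀ c : ι → ℝ) (hc : ∀ i ∈ R, 0 ≤ c i ∧ c i ≤ 1) (N' : ℕ)
    (halive : (frac R c).card ≤ N') (lo X : Finset D) (w : ι → ℝ) (y : D → ℝ) (N : ℕ)
    (hN : 2 * (X.card + 7) ≤ N) :
    ∃ c' : ι → ℝ, (∀ i ∈ R, 0 ≤ c' i ∧ c' i ≤ 1) ∧ (∀ i ∈ R, i ∉ frac R c → c' i = c i) ∧
      (frac R c').card ≤ N ∧ (∀ a ∈ X, ∑ i ∈ R, (c' i - c i) * z i a = 0) ∧
      ∑ i ∈ R, (c' i - c i) = 0 ∧ ∑ i ∈ R, (c' i - c i) * w i = 0 ∧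
      ∑ i ∈ R, (c' i - c i) * (∑ a, y a * z i a) = 0 ∧
      ∑ a, (∑ i ∈ R, (c' i - c i) * z i a) ^ 2 ≤ N' ∧
      ∑ a ∈ lo, Er z R c₀ c' a ^ 2 + 4 * Yd R (eps z lo) c'
        ≤ ∑ a ∈ lo, Er z R c₀ c a ^ 2 + 4 * Yd R (eps z lo) c := by
  let Φ : (↥X ⊕ Fin 3) → ι → ℝ := fun f i =>
    match f with
    | Sum.inl a => z i a
    | Sum.inr 0 => 1
    | Sum.inr 1 => w i
    | Sum.inr 2 => ∑ a, y a * z i a
  have hcardJ : 2 * (Fintype.card (↥X ⊕ Fin 3) + 4) ≤ N := by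
    simp only [Fintype.card_sum, Fintype.card_coe, Fintype.card_fin]
    omega
  obtain ⟨c', hc'range, hc'fix, hc'Φ, hc'card, hc'1, hc'2⟩ := walk_reduce₂ R Φ z hz lo N hcardJ
    _ c (fun _ => 0) (fun a => Er z R c₀ c a) rfl hc
  have hY : 4 * (Yd R (fun _ => 1) c - Yd R (fun _ => 1) c') ≤ N' := by
    have h1 := Yd_nonneg R (fun _ => 1) c' (fun _ _ => zero_le_one) hc'range
    have h2 := Yd_le R (fun _ => 1) c (fun _ _ => zero_le_one) hc
    have h3 : ∑ i ∈ frac R c, (fun _ : ι => (1 : ℝ)) i = (frac R c).card := by simp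
    rw [h3] at h2
    have e3 : ((frac R c).card : ℝ) ≤ N' := by exact_mod_cast halive
    linarith
  refine ⟨c', hc'range, hc'fix, hc'card, ?_, ?_, ?_, ?_, ?_, ?_⟩
  · intro a ha
    have := hc'Φ (Sum.inl ⟨a, ha⟩)
    simp only [Φ] at this
    rw [← this]
    exact Finset.sum_congr rfl (fun i _ => mul_comm _ _)
  · have := hc'Φ (Sum.inr 0)
    simpa [Φ] using this
  · have := hc'Φ (Sum.inr 1)
    simp only [Φ] at this
    rw [← this]
    exact Finset.sum_congr rfl (fun i _ => mul_comm _ _)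
  · have := hc'Φ (Sum.inr 2)
    simp only [Φ] at this
    rw [← this]
    exact Finset.sum_congr rfl (fun i _ => mul_comm _ _)
  · simp only [zero_add] at hc'1
    simp only [ne_eq, OfNat.ofNat_ne_zero, not_false_eq_true, zero_pow, Finset.sum_const_zero,
      zero_add] at hc'1
    linarith
  · have e1 : ∀ a, Er z R c₀ c a + ∑ i ∈ R, (c' i - c i) * z i a = Er z R c₀ c' a := fun a =>
      (Er_step z R c₀ c c' a).symm
    simp only [e1] at hc'2
    linarith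

/-- The chain of stages: state after stage `t`. -/
theorem chain_stages₂ (z : ι → D → ℝ) (R : Finset ι) (hz : ∀ i ∈ R, ∑ a, z i a ^ 2 ≤ 1)
    (c₁ : ι → ℝ) (hc₁ : ∀ i ∈ R, 0 ≤ c₁ i ∧ c₁ i ≤ 1) (N₀ : ℕ)
    (halive : (frac R c₁).card ≤ N₀) (lo : Finset D) (w : ι → ℝ) (y : D → ℝ)
    (X : ℕ → Finset D) (hanti : ∀ t, X (t + 1) ⊆ X t)
    (N : ℕ → ℕ) (hN : ∀ t, 2 * ((X t).card + 7) ≤ N t) :
    ∀ t : ℕ, ∃ c : ι → ℝ, (∀ i ∈ R, 0 ≤ c i ∧ c i ≤ 1) ∧ (∀ i ∈ R, i ∉ frac R c₁ → c i = c₁ i) ∧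
      (frac R c).card ≤ N t ∧ (∀ a ∈ X t, Er z R c₁ c a = 0) ∧
      ∑ i ∈ R, (c i - c₁ i) = 0 ∧ ∑ i ∈ R, (c i - c₁ i) * w i = 0 ∧
      ∑ i ∈ R, (c i - c₁ i) * (∑ a, y a * z i a) = 0 ∧
      (∀ t' ≤ t, nm (X t') (Er z R c₁ c) ≤ ∑ τ ∈ Finset.Ico t' t, Real.sqrt (N τ)) ∧
      ∑ a ∈ lo, Er z R c₁ c a ^ 2 + 4 * Yd R (eps z lo) c ≤ 4 * Yd R (eps z lo) c₁ := by
  intro t
  induction t with
  | zero =>
    obtain ⟨c, hr, hfix, hcard, hX, h0, h1, h2, -, hlo'⟩ := stage₂ z R hz c₁ c₁ hc₁ N₀ halive lo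
      (X 0) w y (N 0) (hN 0)
    have hEr : ∀ a ∈ X 0, Er z R c₁ c a = 0 := fun a ha => hX a ha
    refine ⟨c, hr, hfix, hcard, hEr, h0, h1, h2, ?_, ?_⟩
    · intro t' ht'
      have : t' = 0 := by omega
      subst this
      have e : nm (X 0) (Er z R c₁ c) = 0 := by
        simp only [nm]
        rw [Finset.sum_eq_zero (fun a ha => by rw [hEr a ha]; ring)]
        simp
      rw [e]
      simp
    · simp only [Er_self] at hlo'
      simpa using hlo'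
  | succ t ih =>
    obtain ⟨c, hr, hfix, hcard, hEr, h0, h1, h2, hXt, hlot⟩ := ih
    obtain ⟨c', hr', hfix', hcard', hX', h0', h1', h2', hΔ, hlo'⟩ := stage₂ z R hz c₁ c hr (N t)
      hcard lo (X (t + 1)) w y (N (t + 1)) (hN (t + 1))
    have hfracsub : frac R c ⊆ frac R c₁ := by
      intro i hi
      obtain ⟨hiR, h3, h4⟩ := mem_frac.mp hi
      by_contra hcon
      rw [hfix i hiR hcon] at h3 h4
      exact hcon (mem_frac.mpr ⟨hiR, h3, h4⟩)
    have hsumadd : ∀ g : ι → ℝ, ∑ i ∈ R, (c' i - c₁ i) * g i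
        = ∑ i ∈ R, (c' i - c i) * g i + ∑ i ∈ R, (c i - c₁ i) * g i := by
      intro g
      rw [← Finset.sum_add_distrib]
      exact Finset.sum_congr rfl (fun i _ => by ring)
    have hEr' : ∀ a ∈ X (t + 1), Er z R c₁ c' a = 0 := by
      intro a ha
      rw [Er_step z R c₁ c c' a, hX' a ha, hEr a (hanti t ha), add_zero]
    refine ⟨c', hr', ?_, hcard', hEr', ?_, ?_, ?_, ?_, by linarith⟩
    · intro i hi hi'
      rw [hfix' i hi (fun h => hi' (hfracsub h)), hfix i hi hi']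
    · have := hsumadd (fun _ => 1)
      simp only [mul_one] at this
      rw [this, h0', h0, add_zero]
    · rw [hsumadd w, h1', h1, add_zero]
    · rw [hsumadd (fun i => ∑ a, y a * z i a), h2', h2, add_zero]
    · intro t' ht'
      rcases Nat.lt_or_ge t' (t + 1) with hlt | hge
      · have h3 := hXt t' (by omega)
        have h4 : nm (X t') (fun a => ∑ i ∈ R, (c' i - c i) * z i a) ≤ Real.sqrt (N t) := by
          refine (nm_mono (Finset.subset_univ _) _).trans ?_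
          exact Real.sqrt_le_sqrt hΔ
        have h5 := nm_add_le (X t') (Er z R c₁ c) (fun a => ∑ i ∈ R, (c' i - c i) * z i a)
        have e : (fun a => Er z R c₁ c a + ∑ i ∈ R, (c' i - c i) * z i a) = Er z R c₁ c' := by
          funext a
          exact (Er_step z R c₁ c c' a).symm
        rw [e] at h5
        rw [Finset.sum_Ico_succ_top (by omega)]
        linarith
      · have : t' = t + 1 := by omega
        subst this
        have e : nm (X (t + 1)) (Er z R c₁ c') = 0 := by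
          simp only [nm]
          rw [Finset.sum_eq_zero (fun a ha => by rw [hEr' a ha]; ring)]
          simp
        rw [e]
        simp

/-- **Chain rounding.**  -/
theorem chain_round₂ (z : ι → D → ℝ) (R : Finset ι) (hz : ∀ i ∈ R, ∑ a, z i a ^ 2 ≤ 1)
    (c₁ : ι → ℝ) (hc₁ : ∀ i ∈ R, 0 ≤ c₁ i ∧ c₁ i ≤ 1) (N₀ : ℕ)
    (halive : (frac R c₁).card ≤ N₀) (lo : Finset D) (w : ι → ℝ) (wm : ℝ)
    (hwm0 : 0 ≤ wm) (hw : ∀ i ∈ R, 0 ≤ w i ∧ w i ≤ wm) (y : D → ℝ)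
    (X : ℕ → Finset D) (hanti : ∀ t, X (t + 1) ⊆ X t)
    (N : ℕ → ℕ) (hN : ∀ t, 2 * ((X t).card + 7) ≤ N t) (L : ℕ) :
    ∃ χ : ι → ℝ, (∀ i ∈ R, χ i = 0 ∨ χ i = 1) ∧ (∀ i ∈ R, i ∉ frac R c₁ → χ i = c₁ i) ∧
      |∑ i ∈ R, (χ i - c₁ i)| ≤ N L ∧ |∑ i ∈ R, (χ i - c₁ i) * w i| ≤ N L * wm ∧
      ∑ i ∈ R, (χ i - c₁ i) * (∑ a, y a * z i a) ≤ 0 ∧
      (∀ t ≤ L, nm (X t) (Er z R c₁ χ)
        ≤ ∑ τ ∈ Finset.Ico t L, Real.sqrt (N τ) + (N L : ℝ)) ∧
      ∑ a ∈ lo, Er z R c₁ χ a ^ 2 ≤ (2 + 2 * (N L : ℝ)) * ∑ i ∈ R, ∑ a ∈ lo, z i a ^ 2 := by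
  obtain ⟨c, hr, hfix, hcard, -, h0, h1, h2, hX, hlot⟩ := chain_stages₂ z R hz c₁ hc₁ N₀ halive
    lo w y X hanti N hN L
  set F := frac R c with hF
  have hFR : F ⊆ R := Finset.filter_subset _ _
  set η : ι → ℝ := fun i => ∑ a, y a * z i a with hη
  let χ : ι → ℝ := fun i => if i ∈ F then (if 0 < η i then 0 else 1) else c i
  have hχoff : ∀ i, i ∉ F → χ i = c i := fun i hi => by simp [χ, hi]
  have hint : ∀ i ∈ R, i ∉ F → c i = 0 ∨ c i = 1 := by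
    intro i hi hiF
    have h := hr i hi
    by_contra hcon
    push Not at hcon
    exact hiF (mem_frac.mpr ⟨hi, lt_of_le_of_ne h.1 (Ne.symm hcon.1), lt_of_le_of_ne h.2 hcon.2⟩)
  have hRF : ∀ g : ι → ℝ, ∑ i ∈ R, (χ i - c i) * g i = ∑ i ∈ F, (χ i - c i) * g i := by
    intro g
    refine (Finset.sum_subset hFR (fun i _ hi => ?_)).symm
    rw [hχoff i hi]; ring
  have hχc : ∀ i ∈ F, |χ i - c i| ≤ 1 := by
    intro i hi
    have h := hr i (hFR hi)
    simp only [χ, hi, if_true]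
    split_ifs
    · rw [abs_le]; constructor <;> linarith [h.1, h.2]
    · rw [abs_le]; constructor <;> linarith [h.1, h.2]
  have hsumadd : ∀ g : ι → ℝ, ∑ i ∈ R, (χ i - c₁ i) * g i
      = ∑ i ∈ F, (χ i - c i) * g i + ∑ i ∈ R, (c i - c₁ i) * g i := by
    intro g
    rw [← hRF, ← Finset.sum_add_distrib]
    exact Finset.sum_congr rfl (fun i _ => by ring)
  have hFcard : (F.card : ℝ) ≤ N L := by exact_mod_cast hcard
  have hF0 : (0:ℝ) ≤ F.card := Nat.cast_nonneg _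
  have hErχ : ∀ a, Er z R c₁ χ a = Er z R c₁ c a + ∑ i ∈ F, (χ i - c i) * z i a := by
    intro a
    rw [Er_step z R c₁ c χ a, hRF (fun i => z i a)]
  -- the leftover block
  have hleft : ∀ Q : Finset D, ∑ a ∈ Q, (∑ i ∈ F, (χ i - c i) * z i a) ^ 2
      ≤ (F.card : ℝ) * ∑ i ∈ F, ∑ a ∈ Q, z i a ^ 2 := by
    intro Q
    calc ∑ a ∈ Q, (∑ i ∈ F, (χ i - c i) * z i a) ^ 2
        ≤ ∑ a ∈ Q, ((F.card : ℝ) * ∑ i ∈ F, z i a ^ 2) := by
          refine Finset.sum_le_sum (fun a _ => ?_)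
          have h3 := sq_sum_le_card_mul_sum_sq (s := F) (f := fun i => (χ i - c i) * z i a)
          refine h3.trans ?_
          refine mul_le_mul_of_nonneg_left ?_ (Nat.cast_nonneg _)
          refine Finset.sum_le_sum (fun i hi => ?_)
          have h4 := hχc i hi
          have h5 : (χ i - c i) ^ 2 ≤ 1 := by
            rw [← sq_abs]; nlinarith [abs_nonneg (χ i - c i)]
          rw [mul_pow]
          nlinarith [sq_nonneg (z i a)]
      _ = (F.card : ℝ) * ∑ i ∈ F, ∑ a ∈ Q, z i a ^ 2 := by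
          rw [← Finset.mul_sum, Finset.sum_comm]
  have hleftnm : ∀ Q : Finset D, nm Q (fun a => ∑ i ∈ F, (χ i - c i) * z i a) ≤ N L := by
    intro Q
    refine nm_le_of_sq (Nat.cast_nonneg _) ((hleft Q).trans ?_)
    have h5 : ∑ i ∈ F, ∑ a ∈ Q, z i a ^ 2 ≤ F.card := by
      calc ∑ i ∈ F, ∑ a ∈ Q, z i a ^ 2 ≤ ∑ _i ∈ F, (1 : ℝ) := by
            refine Finset.sum_le_sum (fun i hi => ?_)
            refine le_trans ?_ (hz i (hFR hi))
            exact Finset.sum_le_sum_of_subset_of_nonneg (Finset.subset_univ _)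
              (fun a _ _ => sq_nonneg _)
        _ = F.card := by simp
    have h8 : (0:ℝ) ≤ ∑ i ∈ F, ∑ a ∈ Q, z i a ^ 2 :=
      Finset.sum_nonneg (fun i _ => Finset.sum_nonneg (fun a _ => sq_nonneg _))
    nlinarith
  refine ⟨χ, ?_, ?_, ?_, ?_, ?_, ?_, ?_⟩
  · intro i hi
    by_cases hiF : i ∈ F
    · simp only [χ, hiF, if_true]
      split_ifs <;> simp
    · rw [hχoff i hiF]; exact hint i hi hiF
  · intro i hi hi'
    have hnF : i ∉ F := by
      intro hiF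
      obtain ⟨hiR, h3, h4⟩ := mem_frac.mp hiF
      rw [hfix i hi hi'] at h3 h4
      exact hi' (mem_frac.mpr ⟨hiR, h3, h4⟩)
    rw [hχoff i hnF, hfix i hi hi']
  · have := hsumadd (fun _ => 1)
    simp only [mul_one] at this
    rw [this, h0, add_zero]
    refine (Finset.abs_sum_le_sum_abs _ _).trans ?_
    calc ∑ i ∈ F, |χ i - c i| ≤ ∑ _i ∈ F, (1 : ℝ) := Finset.sum_le_sum hχc
      _ = F.card := by simp
      _ ≤ N L := hFcard
  · rw [hsumadd w, h1, add_zero]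
    refine (Finset.abs_sum_le_sum_abs _ _).trans ?_
    calc ∑ i ∈ F, |(χ i - c i) * w i| ≤ ∑ _i ∈ F, wm := by
          refine Finset.sum_le_sum (fun i hi => ?_)
          rw [abs_mul, abs_of_nonneg (hw i (hFR hi)).1]
          have h3 := hχc i hi
          have h4 := hw i (hFR hi)
          nlinarith [abs_nonneg (χ i - c i)]
      _ = F.card * wm := by simp
      _ ≤ N L * wm := mul_le_mul_of_nonneg_right hFcard hwm0
  · rw [hsumadd η, h2, add_zero]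
    refine Finset.sum_nonpos (fun i hi => ?_)
    have h := hr i (hFR hi)
    simp only [χ, hi, if_true]
    split_ifs with hp
    · nlinarith [h.1]
    · push Not at hp
      nlinarith [h.2]
  · intro t ht
    have h3 := hX t ht
    have h4 := nm_add_le (X t) (Er z R c₁ c) (fun a => ∑ i ∈ F, (χ i - c i) * z i a)
    have e : (fun a => Er z R c₁ c a + ∑ i ∈ F, (χ i - c i) * z i a) = Er z R c₁ χ := by
      funext a
      exact (hErχ a).symm
    rw [e] at h4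
    have h5 := hleftnm (X t)
    linarith
  · have hE0 : 0 ≤ ∑ i ∈ R, ∑ a ∈ lo, z i a ^ 2 :=
      Finset.sum_nonneg (fun i _ => Finset.sum_nonneg (fun a _ => sq_nonneg _))
    have hY1 := Yd_le R (eps z lo) c₁ (fun i _ => eps_nonneg z lo i) hc₁
    have hY2 := Yd_nonneg R (eps z lo) c (fun i _ => eps_nonneg z lo i) hr
    have hsub : frac R c₁ ⊆ R := Finset.filter_subset _ _
    have hY3 : ∑ i ∈ frac R c₁, eps z lo i ≤ ∑ i ∈ R, ∑ a ∈ lo, z i a ^ 2 :=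
      Finset.sum_le_sum_of_subset_of_nonneg hsub (fun i _ _ => eps_nonneg z lo i)
    have hlo1 : ∑ a ∈ lo, Er z R c₁ c a ^ 2 ≤ ∑ i ∈ R, ∑ a ∈ lo, z i a ^ 2 := by linarith
    have h3 := hleft lo
    have h4 : ∑ a ∈ lo, Er z R c₁ χ a ^ 2 ≤ ∑ a ∈ lo, (2 * Er z R c₁ c a ^ 2
        + 2 * (∑ i ∈ F, (χ i - c i) * z i a) ^ 2) := by
      refine Finset.sum_le_sum (fun a _ => ?_)
      rw [hErχ a]
      nlinarith [sq_nonneg (Er z R c₁ c a - ∑ i ∈ F, (χ i - c i) * z i a)]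
    rw [Finset.sum_add_distrib, ← Finset.mul_sum, ← Finset.mul_sum] at h4
    have h5 : ∑ i ∈ F, ∑ a ∈ lo, z i a ^ 2 ≤ ∑ i ∈ R, ∑ a ∈ lo, z i a ^ 2 :=
      Finset.sum_le_sum_of_subset_of_nonneg hFR
        (fun i _ _ => Finset.sum_nonneg (fun a _ => sq_nonneg _))
    have h8 : (0:ℝ) ≤ ∑ i ∈ F, ∑ a ∈ lo, z i a ^ 2 :=
      Finset.sum_nonneg (fun i _ => Finset.sum_nonneg (fun a _ => sq_nonneg _))
    have h7 : (F.card : ℝ) * ∑ i ∈ F, ∑ a ∈ lo, z i a ^ 2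
        ≤ (N L : ℝ) * ∑ i ∈ R, ∑ a ∈ lo, z i a ^ 2 :=
      mul_le_mul hFcard h5 h8 (Nat.cast_nonneg _)
    nlinarith

end Chain

end Vale.Agent.Lib.P262L
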