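import Vale.Agent.Lib.P262L.Rest2
import Vale.Agent.Lib.P262.NodeRound

namespace Vale.Agent.Lib.P262L

open Finset
open Vale.Agent.Lib.P262

section NodeRound

variable {ι D : Type} [DecidableEq ι] [Fintype D] [DecidableEq D]

/-- **The rounding lemma for a node.** -/
theorem node_round₂ {M : ℝ} (hM : M = 16) {z : ι → D → ℝ} (hz : ∀ i, ∑ a, z i a ^ 2 ≤ 1) {Λ : D → ℝ}
    (hΛ : ∀ a, 0 ≤ Λ a) {A μ τ : ℝ} (hd : 1 ≤ Fintype.card D)
    (hA : A = 10 * ((Fintype.card D : ℝ) + 1)) (hμA : 8 * A ^ 2 ≤ μ) (hμτ : 1024 * τ ^ 2 ≤ μ)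
    {j : ℕ} {s R : Finset ι} (hO : OO z Λ A A j s) (hR : R ⊆ s) (hH : (s \ R).card ≤ 2)
    (m : ℕ) (tgt y₀ : D → ℝ) (hτ : ∑ a ∈ Vv Λ μ j, tgt a ^ 2 ≤ τ ^ 2)
    (w : ι → ℝ) (wm : ℝ) (hwm0 : 0 ≤ wm) (hw : ∀ i ∈ R, 0 ≤ w i ∧ w i ≤ wm) :
    ∃ (χ : ι → ℝ) (f l : D → ℝ) (c₀ : ι → ℝ), (∀ i ∈ R, χ i = 0 ∨ χ i = 1) ∧
      (∀ i ∈ R, 7 / 16 ≤ c₀ i ∧ c₀ i ≤ 9 / 16) ∧
      (∀ a, ∑ i ∈ R, (χ i - 1 / 2) * z i a = f a + l a) ∧
      ∑ a ∈ Th Λ μ j, y₀ a * f a ≤ 0 ∧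
      ∑ a ∈ Th Λ μ j, f a ^ 2 ≤ 16 * M ^ 2 * Xi z (Th Λ μ j) R ∧
      (∀ a ∈ Vv Λ μ j, l a = - tgt a) ∧
      (∀ θ : ℝ, 0 ≤ θ → (∀ a ∈ Vv Λ μ j, (64 * A ^ 2 + 128) * τ ^ 2 / (rho j * Λ a) ≤ θ) →
        ∑ a ∈ Th Λ μ j, l a ^ 2 ≤ θ) ∧
      (∀ i ≤ m, ∑ a ∈ flagSet (Vv Λ μ j) Λ i, f a ^ 2
        ≤ 216 * 2 ^ i + 16 * M ^ 2 * (Xi z (Th Λ μ j) R + 1)) ∧
      ∑ p : D × D, (sw (gg Λ A j) p * ∑ i ∈ R, (χ i - 1 / 2) * (z i p.1 * z i p.2)) ^ 2
        ≤ (9 / 8 * ((Fintype.card D : ℝ) + 1) + 1) ^ 2 ∧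
      |∑ i ∈ R, (χ i - c₀ i)| ≤ 2 * M ∧
      |∑ i ∈ R, (χ i - c₀ i) * w i| ≤ 2 * M * wm := by
  set d : ℝ := (Fintype.card D : ℝ) with hdef
  have hd1 : (1 : ℝ) ≤ d := by rw [hdef]; exact_mod_cast hd
  have hApos : 0 < A := by rw [hA]; linarith
  have hAge : 20 ≤ A := by rw [hA]; linarith
  have hμs : A ^ 2 ≤ μ := by nlinarith [sq_nonneg A]
  have hμ8 : 8 ≤ μ := by nlinarith
  have hμ1 : 1 ≤ μ := by linarith
  set V := Vv Λ μ j with hV
  set S := Th Λ μ j with hS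
  set g := gg Λ A j with hg
  have hgpos : ∀ a, 0 < g a := gg_pos hΛ hApos j
  set Γ := ∑ a ∈ V, tgt a ^ 2 with hΓ
  have hΓ0 : 0 ≤ Γ := Finset.sum_nonneg (fun _ _ => sq_nonneg _)
  have hVx : ∀ a ∈ V, μ < rho j * Λ a := fun a ha => (Finset.mem_filter.mp ha).2
  -- the minimal thickness
  obtain ⟨m₀, hm₀μ, hm₀, hm₀ex⟩ : ∃ m₀ : ℝ, μ ≤ m₀ ∧ (∀ a ∈ V, m₀ ≤ rho j * Λ a) ∧
      (V.Nonempty → ∃ a₀ ∈ V, m₀ = rho j * Λ a₀) := by
    by_cases hne : V.Nonempty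
    · obtain ⟨a₀, ha₀, hmin⟩ := Finset.exists_min_image V (fun a => rho j * Λ a) hne
      exact ⟨rho j * Λ a₀, (hVx a₀ ha₀).le, hmin, fun _ => ⟨a₀, ha₀, rfl⟩⟩
    · refine ⟨μ, le_rfl, ?_, fun h => absurd h hne⟩
      intro a ha
      exact absurd ⟨a, ha⟩ hne
  have hm₀pos : 0 < m₀ := by linarith
  have hm₀1 : 1 ≤ m₀ := by linarith
  obtain ⟨v, hv, hsol, ht2, hQ, hW⟩ := tilt_exists hz hΛ hApos hApos.le hμs hμA hμ8 hO hR hH m₀
    hm₀pos hm₀ tgt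
  set t : ι → ℝ := fun i => ∑ b, v b * z i b with ht
  -- size of the tilt
  have ht2' : ∑ i ∈ R, t i ^ 2 ≤ 1 / 256 := by
    refine ht2.trans ?_
    rw [div_le_iff₀ hm₀pos]
    nlinarith
  have htR : ∀ i ∈ R, |t i| ≤ 1 / 16 := by
    intro i hi
    have h1 : t i ^ 2 ≤ ∑ i ∈ R, t i ^ 2 :=
      Finset.single_le_sum (f := fun i => t i ^ 2) (fun i _ => sq_nonneg _) hi
    have h2 : t i ^ 2 ≤ (1 / 16) ^ 2 := by
      refine (h1.trans ht2').trans ?_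
      norm_num
    exact abs_le_of_sq_le_sq h2 (by norm_num)
  set c₀ : ι → ℝ := fun i => 1 / 2 + t i with hc₀
  have hc₀range : ∀ i ∈ R, 7 / 16 ≤ c₀ i ∧ c₀ i ≤ 9 / 16 := by
    intro i hi
    have := abs_le.mp (htR i hi)
    simp only [hc₀]
    constructor <;> linarith [this.1, this.2]
  have hc₀range' : ∀ i ∈ R, 0 ≤ c₀ i ∧ c₀ i ≤ 1 := by
    intro i hi
    have := hc₀range i hi
    constructor <;> linarith [this.1, this.2]
  -- the size of the normalized atoms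
  have hsums : ∑ i ∈ s, nm univ (aa g (z i)) ^ 2 ≤ 2 * d :=
    sum_aa_le hz hΛ hApos hApos.le le_rfl hO
  have hsumR : ∑ i ∈ R, nm univ (aa g (z i)) ^ 2 ≤ 2 * d :=
    (Finset.sum_le_sum_of_subset_of_nonneg hR (fun _ _ _ => sq_nonneg _)).trans hsums
  -- first phase
  obtain ⟨c₁, hc₁r, hc₁card, hc₁z, hc₁0, hc₁w, hc₁hs⟩ := phase_one z R g c₀ hc₀range' w hsumR
  -- chain
  obtain ⟨χ, h01, hfix, hcount, hweight, hcross, hSbd, hflag⟩ := round_rest₂ z R (fun i _ => hz i) c₁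
    hc₁r (2 * Fintype.card D + 8) hc₁card S V Λ m w wm hwm0 hw y₀
  have e16 : 16 * M ^ 2 = 4096 := by rw [hM]; norm_num
  have hlv : ∀ a, ∑ i ∈ R, (χ i - 1 / 2) * z i a = Er z R c₁ χ a + ∑ i ∈ R, t i * z i a := by
    intro a
    have h1 := hc₁z a
    have h2 : ∑ i ∈ R, (χ i - 1 / 2) * z i a
        = ∑ i ∈ R, (χ i - c₁ i) * z i a + ∑ i ∈ R, (c₁ i - c₀ i) * z i a
          + ∑ i ∈ R, t i * z i a := by
      rw [← Finset.sum_add_distrib, ← Finset.sum_add_distrib]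
      refine Finset.sum_congr rfl (fun i _ => ?_)
      simp only [hc₀]
      ring
    rw [h2, h1, add_zero]
    rfl
  have hadd : ∀ g' : ι → ℝ, ∑ i ∈ R, (χ i - c₀ i) * g' i
      = ∑ i ∈ R, (χ i - c₁ i) * g' i + ∑ i ∈ R, (c₁ i - c₀ i) * g' i := by
    intro g'
    rw [← Finset.sum_add_distrib]
    exact Finset.sum_congr rfl (fun i _ => by ring)
  refine ⟨χ, fun a => Er z R c₁ χ a, fun a => ∑ i ∈ R, t i * z i a, c₀, h01, hc₀range, hlv, hcross,
    by rw [e16]; exact hSbd, ?_, ?_, fun i hi => by rw [e16]; exact hflag i hi, ?_, ?_, ?_⟩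
  · intro a ha
    exact hsol a ha
  · -- the leak
    intro θ hθ hθV
    by_cases hne : V.Nonempty
    · obtain ⟨a₀, ha₀, hm₀eq⟩ := hm₀ex hne
      have h1 := leak_bound hz hΛ hApos hμs hO hR hH m₀ Γ hm₀1 hΓ0 v hv hQ hW
      refine h1.trans ?_
      have h2 := hθV a₀ ha₀
      rw [← hm₀eq] at h2
      refine le_trans ?_ h2
      have h3 : 0 ≤ 64 * A ^ 2 + 128 := by positivity
      exact div_le_div_of_nonneg_right (mul_le_mul_of_nonneg_left hτ h3) hm₀pos.le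
    · have hV0 : ∀ a, v a = 0 := by
        intro a
        refine hv a (fun h => hne ⟨a, h⟩)
      have hl0 : ∀ a, ∑ i ∈ R, t i * z i a = 0 := by
        intro a
        refine Finset.sum_eq_zero (fun i _ => ?_)
        simp [ht, hV0]
      simp only [hl0]
      simpa using hθ
  · -- the matrix error
    have hsplit : ∀ p : D × D, sw g p * ∑ i ∈ R, (χ i - 1 / 2) * (z i p.1 * z i p.2)
        = ∑ i ∈ R, t i * aa g (z i) p + ∑ i ∈ R, (c₁ i - c₀ i) * aa g (z i) p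
          + ∑ i ∈ R, (χ i - c₁ i) * aa g (z i) p := by
      intro p
      rw [Finset.mul_sum, ← Finset.sum_add_distrib, ← Finset.sum_add_distrib]
      refine Finset.sum_congr rfl (fun i _ => ?_)
      simp only [aa, hc₀]
      ring
    set T₁ : D × D → ℝ := fun p => ∑ i ∈ R, t i * aa g (z i) p with hT₁
    set T₂ : D × D → ℝ := fun p => ∑ i ∈ R, (c₁ i - c₀ i) * aa g (z i) p with hT₂
    set T₃ : D × D → ℝ := fun p => ∑ i ∈ R, (χ i - c₁ i) * aa g (z i) p with hT₃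
    have hD1 : 0 ≤ d + 1 := by linarith
    have hN1 : nm univ T₁ ≤ (d + 1) / 8 := by
      refine nm_le_of_sq (by positivity) ?_
      have h1 := nm_lincomb_sq univ R t (fun i p => aa g (z i) p)
      refine h1.trans ?_
      have h2 : (∑ i ∈ R, t i ^ 2) * ∑ i ∈ R, nm univ (aa g (z i)) ^ 2 ≤ (1 / 256) * (2 * d) :=
        mul_le_mul ht2' hsumR (Finset.sum_nonneg (fun _ _ => sq_nonneg _)) (by norm_num)
      nlinarith
    have hN2 : nm univ T₂ ≤ d + 1 := by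
      refine nm_le_of_sq (by positivity) (hc₁hs.trans ?_)
      nlinarith
    have hN3 : nm univ T₃ ≤ 1 := by
      have h1 : nm univ T₃ ≤ ∑ i ∈ R, nm univ (fun p => (χ i - c₁ i) * aa g (z i) p) :=
        nm_sum_le univ R (fun i p => (χ i - c₁ i) * aa g (z i) p)
      refine h1.trans ?_
      have hsub : frac R c₁ ⊆ R := Finset.filter_subset _ _
      have h2 : ∑ i ∈ R, nm univ (fun p => (χ i - c₁ i) * aa g (z i) p)
          = ∑ i ∈ frac R c₁, nm univ (fun p => (χ i - c₁ i) * aa g (z i) p) := by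
        refine (Finset.sum_subset hsub (fun i hi hi' => ?_)).symm
        rw [hfix i hi hi']
        simp [nm]
      rw [h2]
      have h3 : ∀ i ∈ frac R c₁, nm univ (fun p => (χ i - c₁ i) * aa g (z i) p) ≤ 1 / A := by
        intro i hi
        have hiR := hsub hi
        rw [nm_smul]
        have h4 : |χ i - c₁ i| ≤ 1 := by
          have h5 := hc₁r i hiR
          rcases h01 i hiR with h6 | h6 <;> rw [h6, abs_le] <;> constructor <;> linarith [h5.1, h5.2]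
        have h5 : nm univ (aa g (z i)) ≤ 1 / A :=
          aa_nm_le hgpos hApos (gg_ge hΛ hApos j) (hz i)
        have h6 : 0 ≤ nm univ (aa g (z i)) := nm_nonneg _ _
        calc |χ i - c₁ i| * nm univ (aa g (z i)) ≤ 1 * (1 / A) :=
              mul_le_mul h4 h5 h6 (by norm_num)
          _ = 1 / A := one_mul _
      have h4 : ∑ i ∈ frac R c₁, nm univ (fun p => (χ i - c₁ i) * aa g (z i) p)
          ≤ ((frac R c₁).card : ℝ) * (1 / A) := by
        have := Finset.sum_le_card_nsmul _ _ _ h3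
        simpa using this
      refine h4.trans ?_
      have h5 : ((frac R c₁).card : ℝ) ≤ 2 * d + 8 := by
        have : ((frac R c₁).card : ℝ) ≤ ((2 * Fintype.card D + 8 : ℕ) : ℝ) := by
          exact_mod_cast hc₁card
        push_cast at this
        exact this
      rw [mul_one_div, div_le_one hApos, hA]
      linarith
    have hfinal : nm univ (fun p : D × D => sw g p * ∑ i ∈ R, (χ i - 1 / 2) * (z i p.1 * z i p.2))
        ≤ 9 / 8 * (d + 1) + 1 := by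
      have h1 : (fun p : D × D => sw g p * ∑ i ∈ R, (χ i - 1 / 2) * (z i p.1 * z i p.2))
          = fun p => (T₁ p + T₂ p) + T₃ p := by
        funext p
        exact hsplit p
      rw [h1]
      have h2 := nm_add_le univ (fun p => T₁ p + T₂ p) T₃
      have h3 := nm_add_le univ T₁ T₂
      linarith
    exact sum_sq_le_of_nm hfinal
  · have := hadd (fun _ => 1)
    simp only [mul_one] at this
    rw [this, hc₁0, add_zero]
    exact hcount.trans (by rw [hM]; norm_num)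
  · rw [hadd w, hc₁w, add_zero]
    exact hweight.trans (mul_le_mul_of_nonneg_right (by rw [hM]; norm_num) hwm0)

end NodeRound

end Vale.Agent.Lib.P262L
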