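import Vale.Agent.Lib.P262.Close
import Vale.Agent.Lib.P262L.NodeRound2

namespace Vale.Agent.Lib.P262L

open Finset
open Vale.Agent.Lib.P262

/-- All the numerical parameters of the construction. -/
structure Par (d : ℕ) where
  m : ℕ
  M : ℝ
  K : ℕ
  A : ℝ
  μ : ℝ
  τ : ℝ
  κ : ℝ
  β₁ : ℝ
  β₂ : ℝ
  C₅ : ℝ
  hM : M = 16
  hd : 1 ≤ d
  hdm : d ≤ 2 ^ m
  hA : A = 10 * ((d : ℝ) + 1)
  hμA : 8 * A ^ 2 ≤ μ
  hμτ : 1024 * τ ^ 2 ≤ μ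
  hμK : 2 * μ ≤ 2 ^ K
  hκ0 : 0 ≤ κ
  hκμ : (64 * A ^ 2 + 128) * τ ^ 2 ≤ κ ^ 2 * μ
  hκd : κ * (4 * (d : ℝ)) ≤ 1
  hτ : Real.sqrt (β₁ * (((K : ℝ) + 1) * (d : ℝ)) + β₂ * (d : ℝ)) + 2 ≤ τ
  hβ₂ : 865 + 32 * M ^ 2 ≤ β₂
  hC₅ : 98304 * M ^ 3 ≤ C₅
  hβA : C₅ * (18 + 576 * M ^ 2) ≤ β₁
  hβB : 36864 * M ^ 2 * (5 + 576 * M ^ 2) ≤ β₁
  hβC : 45 + 2016 * M ^ 2 ≤ β₁

section Facts

variable {ι D : Type} [DecidableEq ι] [Fintype D] [DecidableEq D]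

/-- The invariant of a node. -/
def Inv (z : ι → D → ℝ) (Λ : D → ℝ) (p : Par (Fintype.card D)) (j : ℕ) (s : Finset ι)
    (P : D → ℝ) : Prop :=
  OO z Λ p.A p.A j s ∧ TT z Λ p.μ p.K p.β₁ p.β₂ p.κ j s P ∧
    TT z Λ p.μ p.K p.β₁ p.β₂ p.κ j s (fun a => P a + ∑ i ∈ s, z i a)

namespace Par

variable (p : Par (Fintype.card D))

lemma M_ge : (7 : ℝ) ≤ p.M := by
  rw [p.hM]; norm_num

lemma C₅_pos : 0 < p.C₅ := by
  have h := p.hC₅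
  have h7 := p.M_ge
  have : 0 < p.M ^ 3 := pow_pos (by linarith) 3
  linarith

lemma β₁_pos : 0 < p.β₁ := by
  have h := p.hβC
  have h7 := p.M_ge
  nlinarith [sq_nonneg p.M]

lemma β₂_pos : 0 < p.β₂ := by
  have h := p.hβ₂
  nlinarith [sq_nonneg p.M]

omit [DecidableEq D] in
lemma d_ge (p : Par (Fintype.card D)) : (1 : ℝ) ≤ (Fintype.card D : ℝ) := by exact_mod_cast p.hd

lemma A_ge : 20 ≤ p.A := by
  rw [p.hA]; linarith [p.d_ge]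

lemma A_pos : 0 < p.A := by linarith [p.A_ge]

lemma μ_ge : 8 * p.A ^ 2 ≤ p.μ := p.hμA

lemma μ_pos : 0 < p.μ := by
  have := p.A_ge
  have := p.hμA
  nlinarith

lemma μ_ge_A2 : p.A ^ 2 ≤ p.μ := by
  have := p.hμA
  nlinarith [sq_nonneg p.A]

lemma μ_ge_2A2 : 2 * p.A ^ 2 ≤ p.μ := by
  have := p.hμA
  nlinarith [sq_nonneg p.A]

/-- Norm of an endpoint. -/
lemma norm_endpoint {z : ι → D → ℝ} {Λ : D → ℝ} (hΛ : ∀ a, 0 ≤ Λ a) {j : ℕ} {s : Finset ι}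
    {x : D → ℝ} (h : TT z Λ p.μ p.K p.β₁ p.β₂ p.κ j s x) : nm univ x ≤ p.τ - 1 := by
  have h1 := TT_norm_le hΛ p.μ_pos p.β₁_pos.le p.hκ0 h
  have h2 := p.hτ
  have h3 := p.hκd
  linarith

/-- The budget increment pays the leak. -/
lemma leak_ok {Λ : D → ℝ} (hΛ : ∀ a, 0 ≤ Λ a) (j : ℕ) :
    ∀ a ∈ Vv Λ p.μ j, (64 * p.A ^ 2 + 128) * p.τ ^ 2 / (rho j * Λ a)
      ≤ (Lb p.κ Λ p.μ (j + 1) - Lb p.κ Λ p.μ j) ^ 2 := by
  intro a ha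
  have h1 := Lb_step p.hκ0 hΛ p.μ_pos j ha
  have hx : p.μ < rho j * Λ a := (Finset.mem_filter.mp ha).2
  have hx0 : 0 < rho j * Λ a := p.μ_pos.trans hx
  have h2 : (p.κ * Real.sqrt (p.μ / (rho j * Λ a))) ^ 2
      ≤ (Lb p.κ Λ p.μ (j + 1) - Lb p.κ Λ p.μ j) ^ 2 :=
    pow_le_pow_left₀ (mul_nonneg p.hκ0 (Real.sqrt_nonneg _)) h1 2
  refine le_trans ?_ h2
  rw [mul_pow, Real.sq_sqrt (by have := p.μ_pos; positivity)]
  rw [div_le_iff₀ hx0]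
  have h3 : p.κ ^ 2 * (p.μ / (rho j * Λ a)) * (rho j * Λ a) = p.κ ^ 2 * p.μ := by
    rw [mul_assoc, div_mul_cancel₀ _ hx0.ne']
  rw [h3]
  exact p.hκμ

end Par

/-- Using the flags for a threshold block. -/
lemma flag_use₂ {Λ : D → ℝ} {μ : ℝ} {m : ℕ} (hdm : Fintype.card D ≤ 2 ^ m) {j k : ℕ}
    (f : D → ℝ) {Ξ F0 : ℝ} (hΞ : 0 ≤ Ξ) (hF0 : 0 ≤ F0)
    (hflag : ∀ i ≤ m, ∑ a ∈ flagSet (Vv Λ μ j) Λ i, f a ^ 2 ≤ 216 * 2 ^ i + F0 * (Ξ + 1)) :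
    ∑ a ∈ Th Λ μ k \ Th Λ μ j, f a ^ 2
      ≤ (432 + F0) * ((Th Λ μ k \ Th Λ μ j).card : ℝ) + F0 * Ξ := by
  set K' := Th Λ μ k \ Th Λ μ j with hK'
  by_cases hemp : K' = ∅
  · rw [hemp]
    simp only [Finset.sum_empty, Finset.card_empty, Nat.cast_zero, mul_zero, zero_add]
    exact mul_nonneg hF0 hΞ
  have hr : 0 < K'.card := Finset.card_pos.mpr (Finset.nonempty_iff_ne_empty.mpr hemp)
  set i := Nat.clog 2 K'.card with hi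
  have hle : K'.card ≤ 2 ^ i := Nat.le_pow_clog (by norm_num) _
  have hcardD : K'.card ≤ 2 ^ m := (Finset.card_le_univ K').trans hdm
  have him : i ≤ m := Nat.clog_le_of_le_pow hcardD
  have h2r : 2 ^ i ≤ 2 * K'.card := by
    by_cases h1 : K'.card = 1
    · rw [hi, h1]; simp
    · have hge : 2 ≤ K'.card := by omega
      have h3 : 2 ^ (i - 1) < K'.card :=
        Nat.pow_pred_clog_lt_self (b := 2) (by norm_num) (x := K'.card) (by omega)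
      have hipos : 0 < i := Nat.clog_pos (by norm_num) hge
      have h4 : 2 ^ i = 2 * 2 ^ (i - 1) := by
        rw [← pow_succ']
        congr 1
        omega
      rw [h4]
      omega
  have hKeq : K' = (Vv Λ μ j).filter (fun a => Λ a ≤ μ / rho k) := by
    ext a
    have hr := rho_pos k
    simp only [hK', Th, Vv, Finset.mem_sdiff, Finset.mem_filter, Finset.mem_univ, true_and, not_le]
    rw [le_div_iff₀ hr, mul_comm]
    tauto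
  have hsub : K' ⊆ flagSet (Vv Λ μ j) Λ i := by
    rw [hKeq]
    refine subset_flagSet _ _ _ _ ?_
    rw [← hKeq]
    exact hle
  have h1 : ∑ a ∈ K', f a ^ 2 ≤ ∑ a ∈ flagSet (Vv Λ μ j) Λ i, f a ^ 2 :=
    Finset.sum_le_sum_of_subset_of_nonneg hsub (fun _ _ _ => sq_nonneg _)
  refine h1.trans ((hflag i him).trans ?_)
  have h2 : ((2 : ℝ) ^ i) ≤ 2 * (K'.card : ℝ) := by exact_mod_cast h2r
  have h3 : (1 : ℝ) ≤ K'.card := by exact_mod_cast hr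
  nlinarith

/-- Facts about the rounding of the rest. -/
theorem round_facts {z : ι → D → ℝ} (hz : ∀ i, ∑ a, z i a ^ 2 ≤ 1) {Λ : D → ℝ}
    (hΛ : ∀ a, 0 ≤ Λ a) (p : Par (Fintype.card D)) {j : ℕ} {s R : Finset ι}
    (hO : OO z Λ p.A p.A j s) (hR : R ⊆ s) (hH : (s \ R).card ≤ 2) (y : D → ℝ)
    (hy : nm univ y ≤ p.τ) (w : ι → ℝ) (wm : ℝ) (hwm0 : 0 ≤ wm) (hw : ∀ i ∈ R, 0 ≤ w i ∧ w i ≤ wm) :
    ∃ (Ar Br : Finset ι) (f l : D → ℝ), Ar ⊆ R ∧ Br = R \ Ar ∧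
      (∀ a, ∑ i ∈ Ar, z i a - (1 / 2) * ∑ i ∈ R, z i a = f a + l a) ∧
      ∑ a ∈ Th Λ p.μ j, y a * f a ≤ 0 ∧
      ∑ a ∈ Th Λ p.μ j, f a ^ 2 ≤ 16 * p.M ^ 2 * Xi z (Th Λ p.μ j) R ∧
      (∀ a ∈ Vv Λ p.μ j, l a = - y a) ∧
      ∑ a ∈ Th Λ p.μ j, l a ^ 2 ≤ (Lb p.κ Λ p.μ (j + 1) - Lb p.κ Λ p.μ j) ^ 2 ∧
      (∀ k, ∑ a ∈ Th Λ p.μ k \ Th Λ p.μ j, f a ^ 2
        ≤ (432 + 16 * p.M ^ 2) * ((Th Λ p.μ k \ Th Λ p.μ j).card : ℝ)
          + 16 * p.M ^ 2 * Xi z (Th Λ p.μ j) R) ∧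
      ∑ q : D × D, (sw (gg Λ p.A j) q * (Gm z Ar q - (1 / 2) * Gm z R q)) ^ 2
        ≤ (9 / 8 * ((Fintype.card D : ℝ) + 1) + 1) ^ 2 ∧
      7 / 16 * (R.card : ℝ) - 2 * p.M ≤ (Ar.card : ℝ) ∧
      7 / 16 * (R.card : ℝ) - 2 * p.M ≤ (Br.card : ℝ) ∧
      7 / 16 * ∑ i ∈ R, w i - 2 * p.M * wm ≤ ∑ i ∈ Ar, w i ∧
      7 / 16 * ∑ i ∈ R, w i - 2 * p.M * wm ≤ ∑ i ∈ Br, w i := by
  have hτ' : ∑ a ∈ Vv Λ p.μ j, y a ^ 2 ≤ p.τ ^ 2 := by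
    have h1 : nm (Vv Λ p.μ j) y ≤ p.τ := (nm_mono (Finset.subset_univ _) y).trans hy
    exact sum_sq_le_of_nm h1
  obtain ⟨χ, f, l, c₀, h01, hc₀, hdec, hcross, hSf, hlV, hleak, hflag, hHS, hcount, hweight⟩ :=
    node_round₂ p.hM hz hΛ p.hd p.hA p.hμA p.hμτ hO hR hH p.m y y hτ' w wm hwm0 hw
  set Ar := R.filter (fun i => χ i = 1) with hAr
  have hArsub : Ar ⊆ R := Finset.filter_subset _ _
  have hsumAr : ∀ g : ι → ℝ, ∑ i ∈ Ar, g i = ∑ i ∈ R, χ i * g i := by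
    intro g
    rw [hAr, Finset.sum_filter]
    refine Finset.sum_congr rfl (fun i hi => ?_)
    rcases h01 i hi with h | h <;> simp [h]
  have hsumBr : ∀ g : ι → ℝ, ∑ i ∈ R \ Ar, g i = ∑ i ∈ R, (1 - χ i) * g i := by
    intro g
    have h1 := Finset.sum_sdiff (f := g) hArsub
    rw [hsumAr g] at h1
    have h2 : ∑ i ∈ R, (1 - χ i) * g i = ∑ i ∈ R, g i - ∑ i ∈ R, χ i * g i := by
      rw [← Finset.sum_sub_distrib]
      exact Finset.sum_congr rfl (fun i _ => by ring)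
    rw [h2]
    linarith
  have hcount' : ∀ g : ι → ℝ, ∑ i ∈ R, χ i * g i
      = ∑ i ∈ R, c₀ i * g i + ∑ i ∈ R, (χ i - c₀ i) * g i := by
    intro g
    rw [← Finset.sum_add_distrib]
    exact Finset.sum_congr rfl (fun i _ => by ring)
  have hcA := abs_le.mp hcount
  have hwA := abs_le.mp hweight
  have hc1 : 7 / 16 * (R.card : ℝ) ≤ ∑ i ∈ R, c₀ i := by
    have : ∑ _i ∈ R, (7 / 16 : ℝ) ≤ ∑ i ∈ R, c₀ i :=
      Finset.sum_le_sum (fun i hi => (hc₀ i hi).1)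
    simp only [Finset.sum_const, nsmul_eq_mul] at this
    linarith
  have hc2 : 7 / 16 * (R.card : ℝ) ≤ ∑ i ∈ R, (1 - c₀ i) := by
    have : ∑ _i ∈ R, (7 / 16 : ℝ) ≤ ∑ i ∈ R, (1 - c₀ i) :=
      Finset.sum_le_sum (fun i hi => by linarith [(hc₀ i hi).2])
    simp only [Finset.sum_const, nsmul_eq_mul] at this
    linarith
  have hw1 : 7 / 16 * ∑ i ∈ R, w i ≤ ∑ i ∈ R, c₀ i * w i := by
    rw [Finset.mul_sum]
    exact Finset.sum_le_sum (fun i hi =>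
      mul_le_mul_of_nonneg_right (hc₀ i hi).1 (hw i hi).1)
  have hw2 : 7 / 16 * ∑ i ∈ R, w i ≤ ∑ i ∈ R, (1 - c₀ i) * w i := by
    rw [Finset.mul_sum]
    exact Finset.sum_le_sum (fun i hi =>
      mul_le_mul_of_nonneg_right (by linarith [(hc₀ i hi).2]) (hw i hi).1)
  refine ⟨Ar, R \ Ar, f, l, hArsub, rfl, ?_, hcross, hSf, hlV, ?_, ?_, ?_, ?_, ?_, ?_, ?_⟩
  · intro a
    rw [← hdec a, hsumAr, Finset.mul_sum, ← Finset.sum_sub_distrib]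
    exact Finset.sum_congr rfl (fun i _ => by ring)
  · exact hleak _ (sq_nonneg _) (p.leak_ok hΛ j)
  · intro k
    exact flag_use₂ p.hdm f (Xi_nonneg _ _ _) (by positivity) hflag
  · refine le_trans (le_of_eq ?_) hHS
    refine Finset.sum_congr rfl (fun q _ => ?_)
    congr 2
    simp only [Gm]
    rw [hsumAr, Finset.mul_sum, ← Finset.sum_sub_distrib]
    exact Finset.sum_congr rfl (fun i _ => by ring)
  · have h1 : (Ar.card : ℝ) = ∑ i ∈ R, χ i * 1 := by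
      rw [← hsumAr]; simp
    have h2 := hcount' (fun _ => 1)
    simp only [mul_one] at h1 h2
    rw [h1, h2]
    linarith [hcA.1]
  · have h1 : ((R \ Ar).card : ℝ) = ∑ i ∈ R, (1 - χ i) * 1 := by
      rw [← hsumBr]; simp
    simp only [mul_one] at h1
    have h3 : ∑ i ∈ R, (1 - χ i) = ∑ i ∈ R, (1 - c₀ i) - ∑ i ∈ R, (χ i - c₀ i) := by
      rw [← Finset.sum_sub_distrib]
      exact Finset.sum_congr rfl (fun i _ => by ring)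
    rw [h1, h3]
    linarith [hcA.2]
  · rw [hsumAr, hcount' w]
    linarith [hwA.1]
  · rw [hsumBr]
    have h3 : ∑ i ∈ R, (1 - χ i) * w i
        = ∑ i ∈ R, (1 - c₀ i) * w i - ∑ i ∈ R, (χ i - c₀ i) * w i := by
      rw [← Finset.sum_sub_distrib]
      exact Finset.sum_congr rfl (fun i _ => by ring)
    rw [h3]
    linarith [hwA.2]

/-- Matrix bound for a child. -/
lemma hs_child {z : ι → D → ℝ} (hz : ∀ i, ∑ a, z i a ^ 2 ≤ 1) {g : D → ℝ} (hg : ∀ a, 0 < g a)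
    {s₀ : ℝ} (hs₀ : 0 < s₀) (hgs : ∀ a, s₀ ≤ g a) {F₀ : D × D → ℝ} {B₀ σ : ℝ} (hB₀ : 0 ≤ B₀)
    (hσ : σ = 1 ∨ σ = -1) (X Y : Finset ι) (hXY : X.card + Y.card ≤ 2)
    (hF₀ : ∑ q : D × D, (sw g q * F₀ q) ^ 2 ≤ B₀ ^ 2) :
    ∑ q : D × D, (sw g q * (σ * F₀ q + (1 / 2) * Gm z X q - (1 / 2) * Gm z Y q)) ^ 2
      ≤ (B₀ + 1 / s₀) ^ 2 := by
  have hat : ∀ T : Finset ι, nm univ (fun q : D × D => sw g q * Gm z T q) ≤ (T.card : ℝ) * (1 / s₀) := by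
    intro T
    have e1 : (fun q : D × D => sw g q * Gm z T q) = fun q => ∑ i ∈ T, aa g (z i) q := by
      funext q
      simp only [Gm, aa, Finset.mul_sum]
    rw [e1]
    refine (nm_sum_le univ T (fun i q => aa g (z i) q)).trans ?_
    have : ∑ i ∈ T, nm univ (aa g (z i)) ≤ ∑ _i ∈ T, (1 / s₀) :=
      Finset.sum_le_sum (fun i _ => aa_nm_le hg hs₀ hgs (hz i))
    simpa using this
  have h1 : nm univ (fun q : D × D => sw g q * (σ * F₀ q)) ≤ B₀ := by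
    refine nm_le_of_sq hB₀ ?_
    refine le_trans (le_of_eq ?_) hF₀
    refine Finset.sum_congr rfl (fun q _ => ?_)
    rcases hσ with h | h <;> rw [h] <;> ring
  have h2 : nm univ (fun q : D × D => sw g q * (σ * F₀ q + (1 / 2) * Gm z X q - (1 / 2) * Gm z Y q))
      ≤ B₀ + 1 / s₀ := by
    have e1 : (fun q : D × D => sw g q * (σ * F₀ q + (1 / 2) * Gm z X q - (1 / 2) * Gm z Y q))
        = fun q => (sw g q * (σ * F₀ q) + (1 / 2 : ℝ) * (sw g q * Gm z X q))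
            + (-(1 / 2) : ℝ) * (sw g q * Gm z Y q) := by
      funext q; ring
    rw [e1]
    refine (nm_add_le univ _ _).trans ?_
    have h3 := nm_add_le univ (fun q : D × D => sw g q * (σ * F₀ q))
      (fun q => (1 / 2 : ℝ) * (sw g q * Gm z X q))
    rw [nm_smul] at h3
    rw [nm_smul]
    have h4 : |(1 / 2 : ℝ)| = 1 / 2 := abs_of_pos (by norm_num)
    have h5 : |(-(1 / 2) : ℝ)| = 1 / 2 := by rw [abs_neg, h4]
    rw [h4] at h3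
    rw [h5]
    have h6 := hat X
    have h7 := hat Y
    have h8 : (X.card : ℝ) + (Y.card : ℝ) ≤ 2 := by exact_mod_cast hXY
    have h9 : 0 < 1 / s₀ := by positivity
    nlinarith
  exact sum_sq_le_of_nm h2

end Facts

end Vale.Agent.Lib.P262L
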