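import Vale.Agent.Lib.P262L.Tree2

namespace Vale.Agent.Lib.P262L

open Finset
open Vale.Agent.Lib.P262

section Numeric

lemma num_tau2 {D₀ Y τ m' x : ℝ} (hD1 : 1 ≤ D₀) (hm0 : 0 ≤ m') (hmx : m' + 1 ≤ x)
    (hY : Y = 60000000000000 * ((6 * m' + 81) * D₀) + 9057 * D₀)
    (hτ : τ = Real.sqrt Y + 2) :
    0 ≤ Y ∧ τ ^ 2 ≤ 10000000000000000 * x * D₀ ∧ 4 ≤ τ ^ 2 := by
  have hD0 : 0 ≤ D₀ := by linarith
  have hY0 : 0 ≤ Y := by rw [hY]; positivity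
  have hsqY : Real.sqrt Y ^ 2 = Y := Real.sq_sqrt hY0
  have hsqY0 : 0 ≤ Real.sqrt Y := Real.sqrt_nonneg _
  have hx1 : 1 ≤ x := by linarith
  refine ⟨hY0, ?_, ?_⟩
  · have h1 : τ ^ 2 ≤ 2 * Y + 8 := by
      rw [hτ]
      nlinarith [sq_nonneg (Real.sqrt Y - 2)]
    have h2 : 6 * m' + 81 ≤ 81 * x := by linarith
    have h3 : 60000000000000 * ((6 * m' + 81) * D₀) ≤ 60000000000000 * ((81 * x) * D₀) :=
      mul_le_mul_of_nonneg_left (mul_le_mul_of_nonneg_right h2 hD0) (by norm_num)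
    have h4 : D₀ ≤ x * D₀ := le_mul_of_one_le_left hD0 hx1
    rw [hY] at h1
    nlinarith
  · rw [hτ]
    nlinarith

lemma num_scale2 {A D₀ x τ μ : ℝ} (hD1 : 1 ≤ D₀) (hAle : A ≤ 20 * D₀) (hA0 : 0 < A)
    (hτ2 : τ ^ 2 ≤ 10000000000000000 * x * D₀) (hDx : D₀ ≤ x)
    (hμx : 604462909807314587353088 * x ^ 6 = μ) :
    16 * D₀ ^ 2 * ((64 * A ^ 2 + 128) * τ ^ 2) ≤ μ := by
  have hD0 : 0 ≤ D₀ := by linarith
  have hx0 : 0 ≤ x := by linarith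
  have hA2 : 64 * A ^ 2 + 128 ≤ 25728 * D₀ ^ 2 := by
    have h1 : A ^ 2 ≤ (20 * D₀) ^ 2 := pow_le_pow_left₀ hA0.le hAle 2
    have h2 : 1 ≤ D₀ ^ 2 := one_le_pow₀ hD1
    have h3 : (20 * D₀) ^ 2 = 400 * D₀ ^ 2 := by ring
    linarith
  have hD5 : D₀ ^ 5 ≤ x ^ 5 := pow_le_pow_left₀ hD0 hDx 5
  have h1 : (64 * A ^ 2 + 128) * τ ^ 2 ≤ (25728 * D₀ ^ 2) * (10000000000000000 * x * D₀) :=
    mul_le_mul hA2 hτ2 (sq_nonneg _) (by positivity)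
  have h2 : 16 * D₀ ^ 2 * ((64 * A ^ 2 + 128) * τ ^ 2)
      ≤ 16 * D₀ ^ 2 * ((25728 * D₀ ^ 2) * (10000000000000000 * x * D₀)) :=
    mul_le_mul_of_nonneg_left h1 (by positivity)
  have h3 : 16 * D₀ ^ 2 * ((25728 * D₀ ^ 2) * (10000000000000000 * x * D₀))
      = 4116480000000000000000 * (D₀ ^ 5 * x) := by ring
  have h4 : D₀ ^ 5 * x ≤ x ^ 5 * x := mul_le_mul_of_nonneg_right hD5 hx0
  have h5 : x ^ 5 * x = x ^ 6 := by ring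
  have h6 : 0 ≤ x ^ 6 := by positivity
  rw [← hμx]
  nlinarith

lemma num_final2 {D₀ Y τ m' : ℝ} (hD1 : 1 ≤ D₀) (hm0 : 0 ≤ m')
    (hY : Y = 60000000000000 * ((6 * m' + 81) * D₀) + 9057 * D₀) (hY0 : 0 ≤ Y)
    (hτ : τ = Real.sqrt Y + 2) :
    (τ - 1) ^ 2 + (5 * 16 + 2) ≤ 1000000000000000 * D₀ * (m' + 14) := by
  have hsqY : Real.sqrt Y ^ 2 = Y := Real.sq_sqrt hY0
  have h1 : (τ - 1) ^ 2 ≤ 2 * Y + 2 := by
    rw [hτ]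
    nlinarith [sq_nonneg (Real.sqrt Y - 1)]
  have h2 : 0 ≤ m' * D₀ := by positivity
  rw [hY] at h1
  nlinarith

end Numeric

/-- The numerical parameters exist. -/
theorem exists_par₂ (d : ℕ) (hd : 1 ≤ d) :
    ∃ p : Par d, (p.τ - 1) ^ 2 + (5 * p.M + 2)
        ≤ 1000000000000000 * (d : ℝ) * ((p.m : ℝ) + 14) ∧ p.m = Nat.clog 2 d := by
  obtain ⟨m, hm⟩ : ∃ m : ℕ, m = Nat.clog 2 d := ⟨_, rfl⟩
  have hdm : d ≤ 2 ^ m := by rw [hm]; exact Nat.le_pow_clog (by norm_num) d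
  have hm0 : (0 : ℝ) ≤ m := Nat.cast_nonneg _
  obtain ⟨D₀, hD₀⟩ : ∃ D₀ : ℝ, D₀ = (d : ℝ) := ⟨_, rfl⟩
  have hD1 : 1 ≤ D₀ := by rw [hD₀]; exact_mod_cast hd
  have hD0 : 0 ≤ D₀ := by linarith
  obtain ⟨K, hK⟩ : ∃ K : ℕ, K = 6 * m + 80 := ⟨_, rfl⟩
  have hKr : (K : ℝ) + 1 = 6 * (m : ℝ) + 81 := by
    rw [hK]; push_cast; ring
  obtain ⟨μ, hμ⟩ : ∃ μ : ℝ, μ = 2 ^ (K - 1) := ⟨_, rfl⟩
  obtain ⟨A, hA⟩ : ∃ A : ℝ, A = 10 * (D₀ + 1) := ⟨_, rfl⟩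
  obtain ⟨Y, hY⟩ : ∃ Y : ℝ, Y = 60000000000000 * ((6 * (m : ℝ) + 81) * D₀) + 9057 * D₀ := ⟨_, rfl⟩
  obtain ⟨τ, hτ⟩ : ∃ τ : ℝ, τ = Real.sqrt Y + 2 := ⟨_, rfl⟩
  -- the scale
  obtain ⟨x, hx⟩ : ∃ x : ℝ, x = 2 ^ m := ⟨_, rfl⟩
  have hDx : D₀ ≤ x := by
    have h1 : (d : ℝ) ≤ (2 : ℝ) ^ m := by exact_mod_cast hdm
    rw [hD₀, hx]
    exact h1
  have hmx : (m : ℝ) + 1 ≤ x := by
    have h1 : m + 1 ≤ 2 ^ m := Nat.lt_two_pow_self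
    have h2 : ((m + 1 : ℕ) : ℝ) ≤ ((2 ^ m : ℕ) : ℝ) := by exact_mod_cast h1
    push_cast at h2
    rw [hx]
    exact h2
  obtain ⟨hY0, hτ2, hτge⟩ := num_tau2 hD1 hm0 hmx hY hτ
  have hKpos : K = (K - 1) + 1 := by rw [hK]; omega
  have hμ2 : 2 * μ = 2 ^ K := by
    rw [hμ]
    conv_rhs => rw [hKpos, pow_succ]
    ring
  have hμx : 604462909807314587353088 * x ^ 6 = μ := by
    have e : K - 1 = 79 + m * 6 := by rw [hK]; omega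
    rw [hμ, e, pow_add, pow_mul, hx]
    norm_num
  have hμpos : 0 < μ := by rw [hμ]; positivity
  -- main inequality
  have hAle : A ≤ 20 * D₀ := by rw [hA]; linarith
  have hA0 : 0 < A := by rw [hA]; linarith
  have hmain := num_scale2 hD1 hAle hA0 hτ2 hDx hμx
  have hD2 : 1 ≤ D₀ ^ 2 := one_le_pow₀ hD1
  have hτ4 : 0 ≤ τ ^ 2 := sq_nonneg τ
  have hA1 : 20 ≤ A := by rw [hA]; linarith
  have hA20 : (20 : ℝ) ^ 2 ≤ A ^ 2 := pow_le_pow_left₀ (by norm_num) hA1 2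
  have hD0pos : 0 < D₀ := by linarith
  have hpos5 : 0 < 64 * A ^ 2 + 128 := by positivity
  have hpos6 : 0 ≤ (64 * A ^ 2 + 128) * τ ^ 2 := by positivity
  have hbase : (64 * A ^ 2 + 128) * τ ^ 2 ≤ 16 * D₀ ^ 2 * ((64 * A ^ 2 + 128) * τ ^ 2) := by
    have h1 : 1 ≤ 16 * D₀ ^ 2 := by linarith
    exact le_mul_of_one_le_left hpos6 h1
  have hμAτ : (64 * A ^ 2 + 128) * τ ^ 2 ≤ μ := hbase.trans hmain
  have hμA : 8 * A ^ 2 ≤ μ := by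
    have h1 : (64 * A ^ 2 + 128) * 4 ≤ (64 * A ^ 2 + 128) * τ ^ 2 :=
      mul_le_mul_of_nonneg_left hτge hpos5.le
    linarith
  have hμτ : 1024 * τ ^ 2 ≤ μ := by
    have h1 : (1024 : ℝ) * τ ^ 2 ≤ (64 * A ^ 2 + 128) * τ ^ 2 :=
      mul_le_mul_of_nonneg_right (by norm_num at hA20; linarith) hτ4
    linarith
  have hκμ : (64 * A ^ 2 + 128) * τ ^ 2 ≤ (1 / (4 * D₀)) ^ 2 * μ := by
    have h1 : (1 / (4 * D₀)) ^ 2 * μ = μ / (16 * D₀ ^ 2) := by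
      field_simp
      ring
    rw [h1, le_div_iff₀ (by positivity)]
    linarith
  have hκd : 1 / (4 * D₀) * (4 * D₀) ≤ 1 := by
    have : 1 / (4 * D₀) * (4 * D₀) = 1 := by field_simp
    linarith
  have hfinal := num_final2 hD1 hm0 hY hY0 hτ
  have hτfield : Real.sqrt (60000000000000 * (((K : ℝ) + 1) * D₀) + 9057 * D₀) + 2 ≤ τ := by
    rw [hKr, hτ, hY]
  subst hD₀
  refine ⟨⟨m, 16, K, A, μ, τ, 1 / (4 * (d : ℝ)), 60000000000000, 9057, 402653184, rfl, hd, hdm, hA,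
    hμA, hμτ, by rw [← hμ2], by positivity, hκμ, hκd, hτfield, by norm_num, by norm_num, by norm_num,
    by norm_num, by norm_num⟩, hfinal, hm⟩

end Vale.Agent.Lib.P262L
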