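import Vale.Agent.Lib.P262L.Chain2

namespace Vale.Agent.Lib.P262L

open Finset
open Vale.Agent.Lib.P262

section ChainSets

variable {D : Type} [DecidableEq D]

/-- The decreasing chain of exact coordinate blocks, with the low levels skipped. -/
noncomputable def chainX₂ (hi V : Finset D) (Λ : D → ℝ) (m i₀ t : ℕ) : Finset D :=
  if t ≤ m then hi ∪ flagSet V Λ (m - t + i₀) else if t = m + 1 then hi else ∅

lemma chainX₂_anti (hi V : Finset D) (Λ : D → ℝ) (m i₀ t : ℕ) :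
    chainX₂ hi V Λ m i₀ (t + 1) ⊆ chainX₂ hi V Λ m i₀ t := by
  unfold chainX₂
  by_cases h1 : t + 1 ≤ m
  · have h2 : t ≤ m := by omega
    simp only [h1, h2, if_true]
    refine Finset.union_subset_union_right ?_
    have : m - t + i₀ = (m - (t + 1) + i₀) + 1 := by omega
    rw [this]
    exact flagSet_mono V Λ _
  · by_cases h2 : t = m
    · subst h2
      have e1 : (if t + 1 = t + 1 then hi else ∅) = hi := by simp
      rw [if_neg h1, e1]
      simp
    · have h3 : ¬ (t + 1 = m + 1) := by omega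
      rw [if_neg h1, if_neg h3]
      exact Finset.empty_subset _

/-- Sizes along the chain. -/
noncomputable def chainN₂ (hi V : Finset D) (Λ : D → ℝ) (m i₀ t : ℕ) : ℕ :=
  2 * ((chainX₂ hi V Λ m i₀ t).card + 7)

lemma chainN₂_le (hi V : Finset D) (Λ : D → ℝ) (m i₀ t : ℕ) (ht : t ≤ m)
    (h₀ : hi.card + 7 ≤ 2 ^ i₀) :
    (chainN₂ hi V Λ m i₀ t : ℝ) ≤ 4 * 2 ^ (m - t + i₀) := by
  have h1 : (chainX₂ hi V Λ m i₀ t).card ≤ hi.card + 2 ^ (m - t + i₀) := by
    unfold chainX₂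
    simp only [ht, if_true]
    exact (Finset.card_union_le _ _).trans (Nat.add_le_add_left (flagSet_card V Λ _) _)
  have h2 : 2 ^ i₀ ≤ 2 ^ (m - t + i₀) := Nat.pow_le_pow_right (by norm_num) (by omega)
  have h3 : chainN₂ hi V Λ m i₀ t ≤ 4 * 2 ^ (m - t + i₀) := by
    simp only [chainN₂]
    omega
  exact_mod_cast h3

lemma chainN₂_succ (hi V : Finset D) (Λ : D → ℝ) (m i₀ : ℕ) :
    (chainN₂ hi V Λ m i₀ (m + 1) : ℝ) = 2 * ((hi.card : ℝ) + 7) := by
  have h1 : chainX₂ hi V Λ m i₀ (m + 1) = hi := by simp [chainX₂]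
  simp only [chainN₂, h1]
  push_cast
  ring

lemma chainN₂_top (hi V : Finset D) (Λ : D → ℝ) (m i₀ : ℕ) :
    chainN₂ hi V Λ m i₀ (m + 2) = 14 := by
  have h1 : chainX₂ hi V Λ m i₀ (m + 2) = ∅ := by
    unfold chainX₂
    have h2 : ¬ (m + 2 ≤ m) := by omega
    have h3 : ¬ (m + 2 = m + 1) := by omega
    simp [h2, h3]
  simp [chainN₂, h1]

lemma sqrt_pow_succ_ge (l : ℕ) : 1.4 * Real.sqrt (2 ^ l) ≤ Real.sqrt (2 ^ (l + 1)) := by
  have h1 : Real.sqrt (2 ^ (l + 1)) = Real.sqrt 2 * Real.sqrt (2 ^ l) := by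
    rw [pow_succ', Real.sqrt_mul (by norm_num)]
  rw [h1]
  refine mul_le_mul_of_nonneg_right ?_ (Real.sqrt_nonneg _)
  refine Real.le_sqrt_of_sq_le ?_
  norm_num

/-- The geometric sum along the chain. -/
lemma geo_sum (m i₀ : ℕ) (f : ℕ → ℝ) (hf : ∀ τ ≤ m, f τ ≤ 2 * Real.sqrt (2 ^ (m - τ + i₀))) :
    ∀ k ≤ m, ∑ τ ∈ Finset.Ico (m - k) (m + 1), f τ ≤ 6 * Real.sqrt (2 ^ (k + i₀ + 1)) := by
  intro k
  induction k with
  | zero =>
    intro _
    simp only [Nat.sub_zero, Nat.Ico_succ_singleton, Finset.sum_singleton]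
    have h1 := hf m le_rfl
    have h2 := sqrt_pow_succ_ge i₀
    have h3 := Real.sqrt_nonneg ((2 : ℝ) ^ i₀)
    have e : m - m + i₀ = i₀ := by omega
    rw [e] at h1
    have e2 : 0 + i₀ + 1 = i₀ + 1 := by omega
    rw [e2]
    linarith
  | succ k ih =>
    intro hk
    have h1 : m - (k + 1) < m + 1 := by omega
    rw [Finset.sum_eq_sum_Ico_succ_bot h1]
    have h2 : m - (k + 1) + 1 = m - k := by omega
    rw [h2]
    have h3 := ih (by omega)
    have h4 := hf (m - (k + 1)) (by omega)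
    have e : m - (m - (k + 1)) + i₀ = k + i₀ + 1 := by omega
    rw [e] at h4
    have h5 := sqrt_pow_succ_ge (k + i₀ + 1)
    have e2 : k + 1 + i₀ + 1 = k + i₀ + 1 + 1 := by omega
    rw [e2]
    have h6 := Real.sqrt_nonneg ((2 : ℝ) ^ (k + i₀ + 1))
    linarith

end ChainSets

section RoundRest

variable {ι D : Type} [DecidableEq ι] [Fintype D] [DecidableEq D]

/-- Rounding of the rest after the first phase, with absolute constants. -/
theorem round_rest₂ (z : ι → D → ℝ) (R : Finset ι) (hz : ∀ i ∈ R, ∑ a, z i a ^ 2 ≤ 1)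
    (c₁ : ι → ℝ) (hc₁ : ∀ i ∈ R, 0 ≤ c₁ i ∧ c₁ i ≤ 1) (N₀ : ℕ)
    (halive : (frac R c₁).card ≤ N₀) (S V : Finset D) (Λ : D → ℝ) (m : ℕ)
    (w : ι → ℝ) (wm : ℝ) (hwm0 : 0 ≤ wm) (hw : ∀ i ∈ R, 0 ≤ w i ∧ w i ≤ wm) (y₀ : D → ℝ) :
    ∃ χ : ι → ℝ, (∀ i ∈ R, χ i = 0 ∨ χ i = 1) ∧ (∀ i ∈ R, i ∉ frac R c₁ → χ i = c₁ i) ∧
      |∑ i ∈ R, (χ i - c₁ i)| ≤ 14 ∧
      |∑ i ∈ R, (χ i - c₁ i) * w i| ≤ 14 * wm ∧
      ∑ a ∈ S, y₀ a * Er z R c₁ χ a ≤ 0 ∧
      ∑ a ∈ S, Er z R c₁ χ a ^ 2 ≤ 4096 * Xi z S R ∧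
      ∀ i ≤ m, ∑ a ∈ flagSet V Λ i, Er z R c₁ χ a ^ 2
        ≤ 216 * 2 ^ i + 4096 * (Xi z S R + 1) := by
  set hi := S.filter (fun a => 1 ≤ En z R a) with hhi
  set lo := S.filter (fun a => ¬ 1 ≤ En z R a) with hlo
  set E := ∑ i ∈ R, ∑ a ∈ lo, z i a ^ 2 with hE
  have hE0 : 0 ≤ E := Finset.sum_nonneg (fun i _ => Finset.sum_nonneg (fun a _ => sq_nonneg _))
  have hXi : Xi z S R = (hi.card : ℝ) + E := by
    have h1 : Xi z S R = ∑ a ∈ hi, min 1 (En z R a) + ∑ a ∈ lo, min 1 (En z R a) := by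
      simp only [Xi]
      rw [hhi, hlo, Finset.sum_filter_add_sum_filter_not]
    have h2 : ∑ a ∈ hi, min 1 (En z R a) = (hi.card : ℝ) := by
      rw [Finset.sum_congr rfl (fun a ha => min_eq_left (Finset.mem_filter.mp ha).2),
        Finset.sum_const, nsmul_eq_mul, mul_one]
    have h3 : ∑ a ∈ lo, min 1 (En z R a) = E := by
      rw [Finset.sum_congr rfl (fun a ha =>
        min_eq_right (le_of_lt (not_le.mp (Finset.mem_filter.mp ha).2)))]
      rw [hE, Finset.sum_comm]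
      rfl
    rw [h1, h2, h3]
  have hB0 : (0 : ℝ) ≤ hi.card := Nat.cast_nonneg _
  have hBXi : (hi.card : ℝ) ≤ Xi z S R := by rw [hXi]; linarith
  -- the level to skip to
  obtain ⟨i₀, hi₀⟩ : ∃ i₀, i₀ = Nat.clog 2 (hi.card + 7) := ⟨_, rfl⟩
  have h₀ : hi.card + 7 ≤ 2 ^ i₀ := by rw [hi₀]; exact Nat.le_pow_clog (by norm_num) _
  have h₀' : 2 ^ i₀ ≤ 2 * (hi.card + 7) := by
    have hipos : 0 < i₀ := by rw [hi₀]; exact Nat.clog_pos (by norm_num) (by omega)
    have h3 : 2 ^ (i₀ - 1) < hi.card + 7 := by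
      rw [hi₀]
      exact Nat.pow_pred_clog_lt_self (b := 2) (by norm_num) (x := hi.card + 7) (by omega)
    have h4 : 2 ^ i₀ = 2 * 2 ^ (i₀ - 1) := by
      rw [← pow_succ']
      congr 1
      omega
    omega
  set X := chainX₂ hi V Λ m i₀ with hX
  set N := chainN₂ hi V Λ m i₀ with hN
  obtain ⟨χ, h01, hfix, hcount, hweight, hcross, hXbd, hlobd⟩ := chain_round₂ z R hz c₁ hc₁ N₀
    halive lo w wm hwm0 hw (fun a => if a ∈ S then y₀ a else 0) X (chainX₂_anti hi V Λ m i₀) N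
    (fun t => le_of_eq rfl) (m + 2)
  have hNL : (N (m + 2) : ℝ) = 14 := by
    simp only [hN]; rw [chainN₂_top]; norm_num
  rw [hNL] at hcount hweight hXbd hlobd
  -- the sums along the chain
  have hNsucc : Real.sqrt (N (m + 1) : ℝ) = Real.sqrt (2 * ((hi.card : ℝ) + 7)) := by
    simp only [hN]; rw [chainN₂_succ]
  have hsplit : ∀ t ≤ m + 1, ∑ τ ∈ Finset.Ico t (m + 2), Real.sqrt (N τ)
      = ∑ τ ∈ Finset.Ico t (m + 1), Real.sqrt (N τ) + Real.sqrt (2 * ((hi.card : ℝ) + 7)) := by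
    intro t ht
    rw [Finset.sum_Ico_succ_top ht, hNsucc]
  have hfs : ∀ τ ≤ m, Real.sqrt (N τ) ≤ 2 * Real.sqrt (2 ^ (m - τ + i₀)) := by
    intro τ hτ
    have h1 := chainN₂_le hi V Λ m i₀ τ hτ h₀
    have h2 : Real.sqrt (N τ) ≤ Real.sqrt (4 * 2 ^ (m - τ + i₀)) := Real.sqrt_le_sqrt h1
    refine h2.trans (le_of_eq ?_)
    rw [Real.sqrt_mul (by norm_num)]
    congr 1
    rw [show (4 : ℝ) = 2 ^ 2 by norm_num]
    exact Real.sqrt_sq (by norm_num)
  have hgeo := geo_sum m i₀ (fun τ => Real.sqrt (N τ)) hfs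
  -- the flag estimate
  have hflagk : ∀ k ≤ m, nm (flagSet V Λ (k + i₀)) (Er z R c₁ χ)
      ≤ 6 * Real.sqrt (2 ^ (k + i₀ + 1)) + Real.sqrt (2 * ((hi.card : ℝ) + 7)) + 14 := by
    intro k hk
    have h1 := hXbd (m - k) (by omega)
    rw [hsplit (m - k) (by omega)] at h1
    have h2 : flagSet V Λ (k + i₀) ⊆ X (m - k) := by
      simp only [hX, chainX₂]
      have h3 : m - k ≤ m := by omega
      have h4 : m - (m - k) + i₀ = k + i₀ := by omega
      simp only [h3, if_true, h4]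
      exact Finset.subset_union_right
    have h3 := nm_mono h2 (Er z R c₁ χ)
    have h4 := hgeo k hk
    linarith
  refine ⟨χ, h01, hfix, ?_, ?_, ?_, ?_, ?_⟩
  · exact hcount
  · exact hweight
  · -- the cross term
    refine le_trans (le_of_eq ?_) hcross
    have h1 : ∑ i ∈ R, (χ i - c₁ i) * ∑ a, (if a ∈ S then y₀ a else 0) * z i a
        = ∑ a, (if a ∈ S then y₀ a else 0) * Er z R c₁ χ a := by
      simp only [Er, Finset.mul_sum]
      rw [Finset.sum_comm]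
      refine Finset.sum_congr rfl (fun a _ => Finset.sum_congr rfl (fun i _ => ?_))
      ring
    rw [h1]
    have h2 : ∑ a, (if a ∈ S then y₀ a else 0) * Er z R c₁ χ a
        = ∑ a ∈ S, (if a ∈ S then y₀ a else 0) * Er z R c₁ χ a := by
      refine (Finset.sum_subset (Finset.subset_univ S) (fun a _ ha => ?_)).symm
      simp [ha]
    rw [h2]
    exact Finset.sum_congr rfl (fun a ha => by simp [ha])
  · -- thin coordinates
    have hsplitS : ∑ a ∈ S, Er z R c₁ χ a ^ 2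
        = ∑ a ∈ hi, Er z R c₁ χ a ^ 2 + ∑ a ∈ lo, Er z R c₁ χ a ^ 2 := by
      rw [hhi, hlo, Finset.sum_filter_add_sum_filter_not]
    have hhibd : ∑ a ∈ hi, Er z R c₁ χ a ^ 2 ≤ 4096 * (hi.card : ℝ) := by
      by_cases hempty : hi = ∅
      · rw [hempty]; simp
      · have hB1 : (1 : ℝ) ≤ hi.card := by
          have : 0 < hi.card := Finset.card_pos.mpr (Finset.nonempty_iff_ne_empty.mpr hempty)
          exact_mod_cast this
        have h1 := hXbd (m + 1) (by omega)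
        rw [hsplit (m + 1) le_rfl] at h1
        have h2 : X (m + 1) = hi := by simp [hX, chainX₂]
        rw [h2] at h1
        simp only [Finset.Ico_self, Finset.sum_empty, zero_add] at h1
        have h3 := sum_sq_le_of_nm h1
        refine h3.trans ?_
        have h4 := Real.sq_sqrt (show (0 : ℝ) ≤ 2 * ((hi.card : ℝ) + 7) by positivity)
        nlinarith [sq_nonneg (Real.sqrt (2 * ((hi.card : ℝ) + 7)) - 14)]
    have hlobd' : ∑ a ∈ lo, Er z R c₁ χ a ^ 2 ≤ 4096 * E := by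
      refine hlobd.trans ?_
      refine mul_le_mul_of_nonneg_right ?_ hE0
      norm_num
    rw [hsplitS, hXi, mul_add]
    linarith
  · -- flags
    intro i hi'
    obtain ⟨k, hk, hmono, hpow⟩ : ∃ k, k ≤ m ∧ flagSet V Λ i ⊆ flagSet V Λ (k + i₀) ∧
        (2 : ℝ) ^ (k + i₀ + 1) ≤ 2 * 2 ^ i + 2 * 2 ^ i₀ := by
      by_cases hii : i₀ ≤ i
      · refine ⟨i - i₀, by omega, ?_, ?_⟩
        · have e : i - i₀ + i₀ = i := by omega
          rw [e]
        · have e : i - i₀ + i₀ + 1 = i + 1 := by omega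
          rw [e, pow_succ]
          have : (0 : ℝ) < 2 ^ i₀ := by positivity
          linarith
      · refine ⟨0, by omega, ?_, ?_⟩
        · rw [zero_add]
          have hle : i ≤ i₀ := by omega
          have hmonof : ∀ n : ℕ, flagSet V Λ i ⊆ flagSet V Λ (i + n) := by
            intro n
            induction n with
            | zero => exact subset_rfl
            | succ n ih => exact ih.trans (flagSet_mono V Λ _)
          have := hmonof (i₀ - i)
          have e : i + (i₀ - i) = i₀ := by omega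
          rwa [e] at this
        · rw [zero_add, pow_succ]
          have : (0 : ℝ) < 2 ^ i := by positivity
          linarith
    have h1 := hflagk k hk
    have h2 := nm_mono hmono (Er z R c₁ χ)
    have h3 : nm (flagSet V Λ i) (Er z R c₁ χ) ≤ 6 * Real.sqrt (2 ^ (k + i₀ + 1))
        + Real.sqrt (2 * ((hi.card : ℝ) + 7)) + 14 := h2.trans h1
    have h4 := sum_sq_le_of_nm h3
    refine h4.trans ?_
    obtain ⟨g₁, hg₁⟩ : ∃ g₁, g₁ = Real.sqrt (2 ^ (k + i₀ + 1)) := ⟨_, rfl⟩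
    obtain ⟨g₂, hg₂⟩ : ∃ g₂, g₂ = Real.sqrt (2 * ((hi.card : ℝ) + 7)) := ⟨_, rfl⟩
    rw [← hg₁, ← hg₂]
    have hg₁2 : g₁ ^ 2 = 2 ^ (k + i₀ + 1) := by
      rw [hg₁]; exact Real.sq_sqrt (by positivity)
    have hg₂2 : g₂ ^ 2 = 2 * ((hi.card : ℝ) + 7) := by
      rw [hg₂]; exact Real.sq_sqrt (by positivity)
    have h5 : (2 : ℝ) ^ i₀ ≤ 2 * ((hi.card : ℝ) + 7) := by exact_mod_cast h₀'
    have h6 : (6 * g₁ + g₂ + 14) ^ 2 ≤ 3 * (36 * g₁ ^ 2 + g₂ ^ 2 + 196) := by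
      nlinarith [sq_nonneg (6 * g₁ - g₂), sq_nonneg (6 * g₁ - 14), sq_nonneg (g₂ - 14)]
    rw [hg₁2, hg₂2] at h6
    refine h6.trans ?_
    have h7 : (0 : ℝ) < 2 ^ i := by positivity
    nlinarith

end RoundRest

end Vale.Agent.Lib.P262L
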