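import Vale.Agent.Lib.P262L.Cases2

namespace Vale.Agent.Lib.P262L

open Finset
open Vale.Agent.Lib.P262

section Tree

variable {ι D : Type} [DecidableEq ι] [Fintype D] [DecidableEq D]

/-- All prefix positions of a list stay in the ball of squared radius `R`. -/
def OkL (z : ι → D → ℝ) (P : D → ℝ) (R : ℝ) (l : List ι) : Prop :=
  ∀ l₁, l₁ <+: l → ∑ a, (P a + (l₁.map (fun i => z i a)).sum) ^ 2 ≤ R

omit [DecidableEq ι] [DecidableEq D] in
lemma OkL.append {z : ι → D → ℝ} {P : D → ℝ} {R : ℝ} {a b : List ι} (h₁ : OkL z P R a)
    (h₂ : OkL z (fun x => P x + (a.map (fun i => z i x)).sum) R b) : OkL z P R (a ++ b) := by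
  intro l hl
  rcases List.prefix_or_prefix_of_prefix hl (List.prefix_append a b) with h | h
  · exact h₁ l h
  · obtain ⟨t, rfl⟩ := h
    have ht : t <+: b := (List.prefix_append_right_inj a).mp hl
    have := h₂ t ht
    simp only [List.map_append, List.sum_append, ← add_assoc]
    exact this

/-- Two-ended greedy for small blocks. -/
lemma greedy {z : ι → D → ℝ} (hz : ∀ i, ∑ a, z i a ^ 2 ≤ 1) :
    ∀ (n : ℕ) (s : Finset ι), s.card = n → ∀ (P : D → ℝ) (T : ℝ), ∑ a, P a ^ 2 ≤ T →
      ∑ a, (P a + ∑ i ∈ s, z i a) ^ 2 ≤ T →
      ∃ l : List ι, l.Nodup ∧ l.toFinset = s ∧ OkL z P (T + (s.card : ℝ)) l := by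
  intro n
  induction n with
  | zero =>
    intro s hs P T hP _
    have h0 : s = ∅ := Finset.card_eq_zero.mp hs
    subst h0
    refine ⟨[], List.nodup_nil, rfl, ?_⟩
    intro l₁ hl₁
    have : l₁ = [] := List.prefix_nil.mp hl₁
    subst this
    simpa using hP
  | succ n ih =>
    intro s hs P T hP hP'
    set P' : D → ℝ := fun a => P a + ∑ i ∈ s, z i a with hP'def
    have hP'2 : ∑ a, P' a ^ 2 ≤ T := hP'
    have hne : s.Nonempty := Finset.card_pos.mp (by omega)
    have hchoice : (∃ i ∈ s, ∑ a, P a * z i a ≤ 0) ∨ (∃ i ∈ s, 0 ≤ ∑ a, P' a * z i a) := by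
      by_contra hcon
      push Not at hcon
      obtain ⟨h1, h2⟩ := hcon
      have h3 : ∑ i ∈ s, ∑ a, P a * z i a > 0 := Finset.sum_pos h1 hne
      have h4 : ∑ i ∈ s, ∑ a, P' a * z i a < 0 := Finset.sum_neg h2 hne
      have e1 : ∑ i ∈ s, ∑ a, P a * z i a = ∑ a, P a * (P' a - P a) := by
        rw [Finset.sum_comm]
        refine Finset.sum_congr rfl (fun a _ => ?_)
        rw [← Finset.mul_sum]
        simp only [hP'def]
        ring
      have e2 : ∑ i ∈ s, ∑ a, P' a * z i a = ∑ a, P' a * (P' a - P a) := by
        rw [Finset.sum_comm]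
        refine Finset.sum_congr rfl (fun a _ => ?_)
        rw [← Finset.mul_sum]
        simp only [hP'def]
        ring
      rw [e1] at h3
      rw [e2] at h4
      have h5 : ∑ a, (P' a - P a) ^ 2 = ∑ a, P' a * (P' a - P a) - ∑ a, P a * (P' a - P a) := by
        rw [← Finset.sum_sub_distrib]
        exact Finset.sum_congr rfl (fun a _ => by ring)
      have h6 : 0 ≤ ∑ a, (P' a - P a) ^ 2 := Finset.sum_nonneg (fun _ _ => sq_nonneg _)
      linarith
    rcases hchoice with ⟨i, his, hi⟩ | ⟨i, his, hi⟩
    · -- peel the first atom
      have hcard' : (s.erase i).card = n := by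
        rw [Finset.card_erase_of_mem his, hs]; rfl
      have hP₁ : ∑ a, (P a + z i a) ^ 2 ≤ T + 1 := by
        have e : ∑ a, (P a + z i a) ^ 2 = ∑ a, P a ^ 2 + 2 * ∑ a, P a * z i a + ∑ a, z i a ^ 2 := by
          rw [Finset.mul_sum, ← Finset.sum_add_distrib, ← Finset.sum_add_distrib]
          exact Finset.sum_congr rfl (fun a _ => by ring)
        rw [e]
        have := hz i
        linarith
      have hend : ∀ a, P a + z i a + ∑ i' ∈ s.erase i, z i' a = P' a := by
        intro a
        simp only [hP'def]
        rw [← Finset.add_sum_erase s _ his]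
        ring
      obtain ⟨l, hnd, hl, hok⟩ := ih (s.erase i) hcard' (fun a => P a + z i a) (T + 1) hP₁
        (by simp only [hend]; linarith)
      refine ⟨i :: l, ?_, ?_, ?_⟩
      · refine List.nodup_cons.mpr ⟨?_, hnd⟩
        intro hmem
        have : i ∈ l.toFinset := List.mem_toFinset.mpr hmem
        rw [hl] at this
        exact Finset.notMem_erase i s this
      · rw [List.toFinset_cons, hl, Finset.insert_erase his]
      · intro l₁ hl₁
        have hR : T + 1 + ((s.erase i).card : ℝ) = T + (s.card : ℝ) := by
          rw [hcard', hs]; push_cast; ring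
        cases l₁ with
        | nil =>
          simp only [List.map_nil, List.sum_nil, add_zero]
          have : (0 : ℝ) ≤ s.card := Nat.cast_nonneg _
          linarith
        | cons x t =>
          obtain ⟨t', ht'⟩ := hl₁
          simp only [List.cons_append, List.cons.injEq] at ht'
          obtain ⟨rfl, ht''⟩ := ht'
          have ht : t <+: l := ⟨t', ht''⟩
          have := hok t ht
          rw [hR] at this
          simp only [List.map_cons, List.sum_cons]
          simpa only [add_assoc] using this
    · -- peel the last atom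
      have hcard' : (s.erase i).card = n := by
        rw [Finset.card_erase_of_mem his, hs]; rfl
      have hend : ∀ a, P a + ∑ i' ∈ s.erase i, z i' a = P' a - z i a := by
        intro a
        simp only [hP'def]
        rw [← Finset.add_sum_erase s _ his]
        ring
      have hP₁ : ∑ a, (P' a - z i a) ^ 2 ≤ T + 1 := by
        have e : ∑ a, (P' a - z i a) ^ 2
            = ∑ a, P' a ^ 2 - 2 * ∑ a, P' a * z i a + ∑ a, z i a ^ 2 := by
          rw [Finset.mul_sum, ← Finset.sum_sub_distrib, ← Finset.sum_add_distrib]
          exact Finset.sum_congr rfl (fun a _ => by ring)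
        rw [e]
        have := hz i
        linarith
      obtain ⟨l, hnd, hl, hok⟩ := ih (s.erase i) hcard' P (T + 1) (by linarith)
        (by simp only [hend]; exact hP₁)
      have hR : T + 1 + ((s.erase i).card : ℝ) = T + (s.card : ℝ) := by
        rw [hcard', hs]; push_cast; ring
      rw [hR] at hok
      refine ⟨l ++ [i], ?_, ?_, ?_⟩
      · refine List.Nodup.append hnd (List.nodup_singleton i) ?_
        intro x hx hx'
        simp only [List.mem_singleton] at hx'
        subst hx'
        have : x ∈ l.toFinset := List.mem_toFinset.mpr hx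
        rw [hl] at this
        exact Finset.notMem_erase x s this
      · rw [List.toFinset_append, hl]
        simp only [List.toFinset_cons, List.toFinset_nil, insert_empty_eq]
        rw [Finset.union_comm, ← Finset.insert_eq, Finset.insert_erase his]
      · refine hok.append ?_
        have hlsum : ∀ a, (l.map (fun i' => z i' a)).sum = ∑ i' ∈ s.erase i, z i' a := by
          intro a
          rw [← hl, List.sum_toFinset _ hnd]
        have hcardpos : (0 : ℝ) ≤ s.card := Nat.cast_nonneg _
        intro l₁ hl₁
        rcases List.prefix_cons_iff.mp hl₁ with h | ⟨t, rfl, ht⟩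
        · subst h
          simp only [List.map_nil, List.sum_nil, add_zero, hlsum, hend]
          have hs1 : (1 : ℝ) ≤ s.card := by
            rw [hs]; push_cast; linarith [(Nat.cast_nonneg n : (0 : ℝ) ≤ n)]
          linarith
        · have : t = [] := List.prefix_nil.mp ht
          subst this
          simp only [List.map_cons, List.map_nil, List.sum_cons, List.sum_nil, add_zero, hlsum,
            hend, sub_add_cancel]
          linarith

/-- Conversions from lists to block sums. -/
lemma list_sum_eq {z : ι → D → ℝ} {l : List ι} {s : Finset ι} (hnd : l.Nodup) (hl : l.toFinset = s)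
    (a : D) : (l.map (fun i => z i a)).sum = ∑ i ∈ s, z i a := by
  rw [← hl, List.sum_toFinset _ hnd]

/-- **The tree recursion.** -/
theorem tree_main {z : ι → D → ℝ} (hz : ∀ i, ∑ a, z i a ^ 2 ≤ 1) {Λ : D → ℝ}
    (hΛ : ∀ a, 0 ≤ Λ a) (p : Par (Fintype.card D)) :
    ∀ (n : ℕ) (s : Finset ι), s.card = n → ∀ (j : ℕ) (P : D → ℝ), Inv z Λ p j s P →
      ∃ l : List ι, l.Nodup ∧ l.toFinset = s ∧
        OkL z P ((p.τ - 1) ^ 2 + (5 * p.M + 2)) l := by
  intro n
  induction n using Nat.strong_induction_on with
  | _ n ih =>
    intro s hs j P hInv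
    set Rf : ℝ := (p.τ - 1) ^ 2 + (5 * p.M + 2) with hRf
    by_cases hcount : 5 * p.M + 2 ≤ (s.card : ℝ)
    · rcases node_step hz hΛ p hInv hcount with ⟨A, B, hdisj, hun, hAc, hBc, hIA, hIB⟩ |
        ⟨A, B, i₀, hi₀, hdisj, hun, hIA, hIB⟩
      · obtain ⟨lA, hndA, hlA, hokA⟩ := ih A.card (by omega) A rfl (j + 1) P hIA
        obtain ⟨lB, hndB, hlB, hokB⟩ := ih B.card (by omega) B rfl (j + 1) _ hIB
        refine ⟨lA ++ lB, ?_, ?_, ?_⟩
        · refine List.Nodup.append hndA hndB ?_
          intro x hx hx'
          have h1 : x ∈ A := by rw [← hlA]; exact List.mem_toFinset.mpr hx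
          have h2 : x ∈ B := by rw [← hlB]; exact List.mem_toFinset.mpr hx'
          exact Finset.disjoint_left.mp hdisj h1 h2
        · rw [List.toFinset_append, hlA, hlB, hun]
        · refine hokA.append ?_
          have e : (fun x => P x + (lA.map (fun i => z i x)).sum)
              = fun a => P a + ∑ i ∈ A, z i a := by
            funext x
            rw [list_sum_eq hndA hlA]
          rw [e]
          exact hokB
      · have hsubA : A ⊆ s.erase i₀ := by rw [← hun]; exact Finset.subset_union_left
        have hsubB : B ⊆ s.erase i₀ := by rw [← hun]; exact Finset.subset_union_right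
        have hlt : (s.erase i₀).card < s.card := Finset.card_erase_lt_of_mem hi₀
        have hAc : A.card < n := by
          have := Finset.card_le_card hsubA
          omega
        have hBc : B.card < n := by
          have := Finset.card_le_card hsubB
          omega
        obtain ⟨lA, hndA, hlA, hokA⟩ := ih A.card hAc A rfl (j + 1) P hIA
        obtain ⟨lB, hndB, hlB, hokB⟩ := ih B.card hBc B rfl (j + 1) _ hIB
        refine ⟨lA ++ (i₀ :: lB), ?_, ?_, ?_⟩
        · have hi₀A : i₀ ∉ A := fun h => Finset.notMem_erase i₀ s (hsubA h)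
          have hi₀B : i₀ ∉ B := fun h => Finset.notMem_erase i₀ s (hsubB h)
          refine List.Nodup.append hndA (List.nodup_cons.mpr ⟨?_, hndB⟩) ?_
          · intro h
            exact hi₀B (by rw [← hlB]; exact List.mem_toFinset.mpr h)
          · intro x hx hx'
            have h1 : x ∈ A := by rw [← hlA]; exact List.mem_toFinset.mpr hx
            rcases List.mem_cons.mp hx' with h | h
            · subst h
              exact hi₀A h1
            · have h2 : x ∈ B := by rw [← hlB]; exact List.mem_toFinset.mpr h
              exact Finset.disjoint_left.mp hdisj h1 h2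
        · rw [List.toFinset_append, List.toFinset_cons, hlA, hlB, Finset.union_comm,
            Finset.insert_union, Finset.union_comm B A, hun, Finset.insert_erase hi₀]
        · refine hokA.append ?_
          intro l₁ hl₁
          cases l₁ with
          | nil =>
            have h := hokA lA List.prefix_rfl
            simpa using h
          | cons x t =>
            obtain ⟨t', ht'⟩ := hl₁
            simp only [List.cons_append, List.cons.injEq] at ht'
            obtain ⟨rfl, ht''⟩ := ht'
            have ht : t <+: lB := ⟨t', ht''⟩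
            have := hokB t ht
            simp only [List.map_cons, List.sum_cons]
            have e : ∀ a, P a + (lA.map (fun i => z i a)).sum + (z x a + (t.map (fun i => z i a)).sum)
                = P a + ∑ i ∈ A, z i a + z x a + (t.map (fun i => z i a)).sum := by
              intro a
              rw [list_sum_eq hndA hlA]
              ring
            simp only [e]
            exact this
    · push Not at hcount
      -- leaf
      have hTP := hInv.2.1
      have hTP' := hInv.2.2
      have h1 := p.norm_endpoint hΛ hTP
      have h2 := p.norm_endpoint hΛ hTP'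
      have hτ1 : 0 ≤ p.τ - 1 := by
        have := nm_nonneg (univ : Finset D) P
        linarith
      have h3 : ∑ a, P a ^ 2 ≤ (p.τ - 1) ^ 2 := sum_sq_le_of_nm h1
      have h4 : ∑ a, (P a + ∑ i ∈ s, z i a) ^ 2 ≤ (p.τ - 1) ^ 2 := sum_sq_le_of_nm h2
      obtain ⟨l, hnd, hl, hok⟩ := greedy hz s.card s rfl P _ h3 h4
      refine ⟨l, hnd, hl, ?_⟩
      intro l₁ hl₁
      refine (hok l₁ hl₁).trans ?_
      rw [hRf]
      linarith

end Tree

end Vale.Agent.Lib.P262L
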