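import Vale.Agent.Lib.P262.Chain

namespace Vale.Agent.Lib.P262L

open Finset
open Vale.Agent.Lib.P262

section Direction

variable {ι E J : Type} [DecidableEq ι] [Fintype E] [Fintype J]

/-- Kernel direction with small quadratic growth in two clocks at once: simultaneous
diagonalization of the two quadratic forms on the kernel, and Bessel in both inner products. -/
lemma exists_direction₂ (A : Finset ι) (hA : A.Nonempty) (Φ : J → ι → ℝ)
    (hJ : 2 * Fintype.card J ≤ A.card) (b : ι → E → ℝ)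
    (hb : ∀ i ∈ A, ∑ a, b i a ^ 2 ≤ 1) (lo : Finset E) :
    ∃ u : ι → ℝ, (∀ i, i ∉ A → u i = 0) ∧ (∃ i ∈ A, u i ≠ 0) ∧
      (∀ f, ∑ i ∈ A, Φ f i * u i = 0) ∧
      ∑ a, (∑ i ∈ A, u i * b i a) ^ 2 ≤ 4 * ∑ i ∈ A, u i ^ 2 ∧
      ∑ a ∈ lo, (∑ i ∈ A, u i * b i a) ^ 2 ≤ 4 * ∑ i ∈ A, (∑ a ∈ lo, b i a ^ 2) * u i ^ 2 := by
  classical
  let n := A.card
  have hn : 0 < n := Finset.card_pos.mpr hA
  let X := EuclideanSpace ℝ ↥A
  -- the constraint map
  let L : X →ₗ[ℝ] (J → ℝ) :=
    { toFun := fun x f => ∑ i : ↥A, Φ f i * x i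
      map_add' := by
        intro x y; funext f
        simp only [Pi.add_apply, ← Finset.sum_add_distrib]
        refine Finset.sum_congr rfl (fun i _ => ?_)
        show Φ f i * (x i + y i) = Φ f i * x i + Φ f i * y i
        ring
      map_smul' := by
        intro c x; funext f
        simp only [RingHom.id_apply, Pi.smul_apply, smul_eq_mul, Finset.mul_sum]
        refine Finset.sum_congr rfl (fun i _ => ?_)
        show Φ f i * (c * x i) = c * (Φ f i * x i)
        ring }
  let W := LinearMap.ker L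
  have hfinX : Module.finrank ℝ X = n := by
    simp [X, n]
  have hrank : Module.finrank ℝ (LinearMap.range L) ≤ Fintype.card J := by
    have := Submodule.finrank_le (LinearMap.range L)
    simpa using this
  have hdim : Module.finrank ℝ (LinearMap.range L) + Module.finrank ℝ W = n := by
    rw [← hfinX]; exact LinearMap.finrank_range_add_finrank_ker L
  obtain ⟨k, hk⟩ : ∃ k, k = Module.finrank ℝ W := ⟨_, rfl⟩
  have hk2 : n ≤ 2 * k := by omega
  have hkpos : 0 < k := by omega
  -- the second form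
  let ε : ↥A → ℝ := fun i => ∑ a ∈ lo, b i a ^ 2
  have hε0 : ∀ i, 0 ≤ ε i := fun i => Finset.sum_nonneg (fun _ _ => sq_nonneg _)
  let Dg : X →ₗ[ℝ] X :=
    { toFun := fun x => WithLp.toLp 2 (fun i => ε i * x i)
      map_add' := by
        intro x y
        ext i
        show ε i * (x i + y i) = ε i * x i + ε i * y i
        ring
      map_smul' := by
        intro c x
        ext i
        show ε i * (c * x i) = c * (ε i * x i)
        ring }
  have hDgin : ∀ x y : X, inner ℝ (Dg x) y = ∑ i, ε i * (x i * y i) := by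
    intro x y
    rw [PiLp.inner_apply]
    refine Finset.sum_congr rfl (fun i _ => ?_)
    simp only [Dg, RCLike.inner_apply, conj_trivial]
    show y i * (ε i * x i) = _
    ring
  let T : W →ₗ[ℝ] W := LinearMap.adjoint W.subtype ∘ₗ Dg ∘ₗ W.subtype
  have hTin : ∀ x y : W, inner ℝ (T x) y = ∑ i, ε i * ((x : X) i * (y : X) i) := by
    intro x y
    show inner ℝ (LinearMap.adjoint W.subtype (Dg (W.subtype x))) y = _
    rw [LinearMap.adjoint_inner_left]
    exact hDgin _ _
  have hT : T.IsSymmetric := by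
    intro x y
    rw [hTin, real_inner_comm, hTin]
    refine Finset.sum_congr rfl (fun i _ => ?_)
    ring
  have hfin : Module.finrank ℝ W = k := hk.symm
  let e := hT.eigenvectorBasis hfin
  let lam : Fin k → ℝ := hT.eigenvalues hfin
  have hTe : ∀ p, T (e p) = lam p • e p := fun p => hT.apply_eigenvectorBasis hfin p
  have horth : Orthonormal ℝ (fun p => ((e p : W) : X)) :=
    e.orthonormal.comp_linearIsometry W.subtypeₗᵢ
  -- the form in the eigenbasis
  have hform : ∀ p q, ∑ i, ε i * (((e p : W) : X) i * ((e q : W) : X) i)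
      = if p = q then lam p else 0 := by
    intro p q
    rw [← hTin, hTe]
    have h0 : inner ℝ (lam p • e p) (e q) = lam p * inner ℝ (e p) (e q) := by
      simp [inner_smul_left]
    rw [h0]
    have := e.orthonormal
    rw [orthonormal_iff_ite] at this
    rw [this p q]
    split_ifs <;> simp
  have hlam : ∀ p, lam p = ∑ i, ε i * ((((e p : W) : X) i) ^ 2) := by
    intro p
    have := hform p p
    simp only [if_true] at this
    rw [← this]
    exact Finset.sum_congr rfl (fun i _ => by ring)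
  have hlam0 : ∀ p, 0 ≤ lam p := by
    intro p
    rw [hlam]
    exact Finset.sum_nonneg (fun i _ => mul_nonneg (hε0 i) (sq_nonneg _))
  -- the two families of test vectors
  let β : E → X := fun a => WithLp.toLp 2 (fun i : ↥A => b i a)
  let Q : Fin k → E → ℝ := fun p a => ∑ i : ↥A, ((e p : W) : X) i * b i a
  have hQβ : ∀ p a, Q p a = inner ℝ ((e p : W) : X) (β a) := by
    intro p a
    rw [PiLp.inner_apply]
    refine Finset.sum_congr rfl (fun i _ => ?_)
    simp only [β, RCLike.inner_apply, conj_trivial]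
    ring
  have hbessel₁ : ∀ a, ∑ p, Q p a ^ 2 ≤ ‖β a‖ ^ 2 := by
    intro a
    have := horth.sum_inner_products_le (s := Finset.univ) (x := β a)
    simp only [hQβ]
    simpa using this
  have hβnorm : ∀ a, ‖β a‖ ^ 2 = ∑ i : ↥A, b i a ^ 2 := by
    intro a
    rw [EuclideanSpace.norm_sq_eq]
    refine Finset.sum_congr rfl (fun i _ => ?_)
    simp only [β, Real.norm_eq_abs, sq_abs]
  have hsum₁ : ∑ p, ∑ a, Q p a ^ 2 ≤ (n : ℝ) := by
    rw [Finset.sum_comm]
    calc ∑ a, ∑ p, Q p a ^ 2 ≤ ∑ a, ‖β a‖ ^ 2 := Finset.sum_le_sum (fun a _ => hbessel₁ a)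
      _ = ∑ i : ↥A, ∑ a, b i a ^ 2 := by
          simp_rw [hβnorm]
          rw [Finset.sum_comm]
      _ ≤ ∑ _i : ↥A, (1 : ℝ) := Finset.sum_le_sum (fun i _ => hb i i.2)
      _ = n := by simp [n]
  -- second family
  let sε : ↥A → ℝ := fun i => Real.sqrt (ε i)
  have hsε2 : ∀ i, sε i ^ 2 = ε i := fun i => Real.sq_sqrt (hε0 i)
  have hzero : ∀ i : ↥A, ε i = 0 → ∀ a ∈ lo, b i a = 0 := by
    intro i hi a ha
    have h1 := (Finset.sum_eq_zero_iff_of_nonneg (fun a _ => sq_nonneg (b i a))).mp hi a ha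
    exact pow_eq_zero_iff (two_ne_zero) |>.mp h1
  let γ : E → X := fun a => WithLp.toLp 2 (fun i : ↥A => b i a / sε i)
  let x : Fin k → X := fun p => WithLp.toLp 2 (fun i : ↥A => sε i * ((e p : W) : X) i / Real.sqrt (lam p))
  have hxin : ∀ p a, a ∈ lo → inner ℝ (x p) (γ a) = Q p a / Real.sqrt (lam p) := by
    intro p a ha
    rw [PiLp.inner_apply, div_eq_mul_inv, Finset.sum_mul]
    refine Finset.sum_congr rfl (fun i _ => ?_)
    simp only [x, γ, RCLike.inner_apply, conj_trivial]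
    by_cases h0 : ε i = 0
    · have hb0 := hzero i h0 a ha
      simp [hb0]
    · have h1 : sε i ≠ 0 := by
        intro h2
        apply h0
        rw [← hsε2 i, h2]
        ring
      field_simp
  -- the orthonormal family on positive eigenvalues
  let P := (Finset.univ : Finset (Fin k)).filter (fun p => 0 < lam p)
  have hxorth : Orthonormal ℝ (fun p : ↥P => x p) := by
    rw [orthonormal_iff_ite]
    intro p q
    have hp : 0 < lam p := (Finset.mem_filter.mp p.2).2
    have hq : 0 < lam q := (Finset.mem_filter.mp q.2).2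
    rw [PiLp.inner_apply]
    have h1 : ∀ i : ↥A, inner ℝ ((x p : X) i) ((x q : X) i)
        = (ε i * (((e p : W) : X) i * ((e q : W) : X) i))
          / (Real.sqrt (lam p) * Real.sqrt (lam q)) := by
      intro i
      simp only [x, RCLike.inner_apply, conj_trivial]
      have h2 := hsε2 i
      rw [← h2]
      have hsp : Real.sqrt (lam p) ≠ 0 := (Real.sqrt_pos.mpr hp).ne'
      have hsq : Real.sqrt (lam q) ≠ 0 := (Real.sqrt_pos.mpr hq).ne'
      field_simp
    simp_rw [h1]
    rw [← Finset.sum_div, hform p q]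
    by_cases hpq : p = q
    · subst hpq
      simp only [if_true]
      rw [Real.mul_self_sqrt (hlam0 _), div_self hp.ne']
    · have hne : (p : Fin k) ≠ q := fun h => hpq (Subtype.ext h)
      simp [hpq, hne]
  have hbessel₂ : ∀ a, a ∈ lo → ∑ p ∈ P, Q p a ^ 2 / lam p ≤ ‖γ a‖ ^ 2 := by
    intro a ha
    have h1 := hxorth.sum_inner_products_le (s := Finset.univ) (x := γ a)
    refine le_trans (le_of_eq ?_) h1
    rw [← Finset.sum_coe_sort P]
    refine Finset.sum_congr rfl (fun p _ => ?_)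
    have hp : 0 < lam p := (Finset.mem_filter.mp p.2).2
    rw [hxin p a ha, Real.norm_eq_abs, sq_abs, div_pow, Real.sq_sqrt hp.le]
  have hγnorm : ∀ a, ‖γ a‖ ^ 2 = ∑ i : ↥A, b i a ^ 2 / ε i := by
    intro a
    rw [EuclideanSpace.norm_sq_eq]
    refine Finset.sum_congr rfl (fun i _ => ?_)
    simp only [γ, Real.norm_eq_abs, sq_abs, div_pow, hsε2]
  have hsum₂ : ∑ p ∈ P, ∑ a ∈ lo, Q p a ^ 2 / lam p ≤ (n : ℝ) := by
    rw [Finset.sum_comm]
    calc ∑ a ∈ lo, ∑ p ∈ P, Q p a ^ 2 / lam p ≤ ∑ a ∈ lo, ‖γ a‖ ^ 2 :=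
          Finset.sum_le_sum (fun a ha => hbessel₂ a ha)
      _ = ∑ i : ↥A, ∑ a ∈ lo, b i a ^ 2 / ε i := by
          simp_rw [hγnorm]
          rw [Finset.sum_comm]
      _ = ∑ i : ↥A, ε i / ε i := by
          refine Finset.sum_congr rfl (fun i _ => ?_)
          rw [← Finset.sum_div]
      _ ≤ ∑ _i : ↥A, (1 : ℝ) := Finset.sum_le_sum (fun i _ => div_self_le_one _)
      _ = n := by simp [n]
  -- choose the index
  let r : Fin k → ℝ := fun p => ∑ a, Q p a ^ 2 + if 0 < lam p then ∑ a ∈ lo, Q p a ^ 2 / lam p else 0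
  have hrsum : ∑ p, r p ≤ 4 * (k : ℝ) := by
    simp only [r]
    rw [Finset.sum_add_distrib]
    have h1 : ∑ p, (if 0 < lam p then ∑ a ∈ lo, Q p a ^ 2 / lam p else 0)
        = ∑ p ∈ P, ∑ a ∈ lo, Q p a ^ 2 / lam p := by
      rw [Finset.sum_filter]
    rw [h1]
    have h2 : (n : ℝ) ≤ 2 * (k : ℝ) := by exact_mod_cast hk2
    linarith
  have hne : (Finset.univ : Finset (Fin k)).Nonempty := ⟨⟨0, hkpos⟩, Finset.mem_univ _⟩
  obtain ⟨p, -, hp⟩ : ∃ p ∈ (Finset.univ : Finset (Fin k)), r p ≤ 4 := by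
    by_contra hcon
    push Not at hcon
    have : ∑ _p : Fin k, (4 : ℝ) < ∑ p, r p := Finset.sum_lt_sum_of_nonempty hne hcon
    simp only [Finset.sum_const, Finset.card_univ, Fintype.card_fin, nsmul_eq_mul] at this
    linarith
  have hQ0 : ∑ a, Q p a ^ 2 ≤ 4 := by
    simp only [r] at hp
    split_ifs at hp with h
    · have : 0 ≤ ∑ a ∈ lo, Q p a ^ 2 / lam p :=
        Finset.sum_nonneg (fun a _ => div_nonneg (sq_nonneg _) h.le)
      linarith
    · linarith
  have hQ2 : ∑ a ∈ lo, Q p a ^ 2 ≤ 4 * lam p := by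
    by_cases h : 0 < lam p
    · simp only [r, h, if_true] at hp
      have h0 : 0 ≤ ∑ a, Q p a ^ 2 := Finset.sum_nonneg (fun _ _ => sq_nonneg _)
      have h1 : ∑ a ∈ lo, Q p a ^ 2 / lam p ≤ 4 := by linarith
      rw [← Finset.sum_div, div_le_iff₀ h] at h1
      exact h1
    · have h0 : lam p = 0 := le_antisymm (not_lt.mp h) (hlam0 p)
      have h1 : ∀ i : ↥A, ε i * ((((e p : W) : X) i) ^ 2) = 0 := by
        have h2 := hlam p
        rw [h0] at h2
        intro i
        exact (Finset.sum_eq_zero_iff_of_nonneg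
          (fun i _ => mul_nonneg (hε0 i) (sq_nonneg _))).mp h2.symm i (Finset.mem_univ _)
      have h3 : ∀ a ∈ lo, Q p a = 0 := by
        intro a ha
        refine Finset.sum_eq_zero (fun i _ => ?_)
        by_cases h4 : ε i = 0
        · rw [hzero i h4 a ha, mul_zero]
        · have h5 := h1 i
          have h6 : ((((e p : W) : X) i) ^ 2) = 0 := by
            rcases mul_eq_zero.mp h5 with h7 | h7
            · exact absurd h7 h4
            · exact h7
          have h7 : ((e p : W) : X) i = 0 := pow_eq_zero_iff (two_ne_zero) |>.mp h6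
          rw [h7, zero_mul]
      rw [h0, Finset.sum_eq_zero (fun a ha => by rw [h3 a ha]; ring)]
      simp
  -- the direction
  let y : X := ((e p : W) : X)
  have hynorm : ‖y‖ = 1 := horth.1 p
  have hyker : L y = 0 := (e p : W).2
  let u : ι → ℝ := fun i => if h : i ∈ A then y ⟨i, h⟩ else 0
  have hu : ∀ i : ↥A, u i = y i := fun i => by simp [u]
  have hu2 : ∑ i ∈ A, u i ^ 2 = 1 := by
    rw [← Finset.sum_coe_sort A]
    have : ‖y‖ ^ 2 = 1 := by rw [hynorm]; norm_num
    rw [EuclideanSpace.norm_sq_eq] at this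
    rw [← this]
    refine Finset.sum_congr rfl (fun i _ => ?_)
    rw [hu, Real.norm_eq_abs, sq_abs]
  have hQu : ∀ a, ∑ i ∈ A, u i * b i a = Q p a := by
    intro a
    rw [← Finset.sum_coe_sort A]
    refine Finset.sum_congr rfl (fun i _ => ?_)
    rw [hu]
  refine ⟨u, fun i hi => by simp [u, hi], ?_, ?_, ?_, ?_⟩
  · by_contra hcon
    push Not at hcon
    have : ∑ i ∈ A, u i ^ 2 = 0 :=
      Finset.sum_eq_zero (fun i hi => by rw [hcon i hi]; ring)
    rw [hu2] at this
    exact one_ne_zero this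
  · intro f
    rw [← Finset.sum_coe_sort A]
    have := congrFun hyker f
    simp only [L, Pi.zero_apply] at this
    rw [← this]
    show _ = ∑ i : ↥A, Φ f i * y i
    refine Finset.sum_congr rfl (fun i _ => ?_)
    rw [hu]
  · simp_rw [hQu]
    rw [hu2, mul_one]
    exact hQ0
  · simp_rw [hQu]
    refine hQ2.trans (le_of_eq ?_)
    congr 1
    rw [hlam p, ← Finset.sum_coe_sort A]
    refine Finset.sum_congr rfl (fun i _ => ?_)
    rw [hu]

end Direction

section Walk

variable {ι D : Type}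

/-- One step in one clock. -/
lemma clock_step (R F : Finset ι) (hFR : F ⊆ R) (c u dd : ι → ℝ) (hu0 : ∀ i, i ∉ F → u i = 0)
    (δ : ℝ) (Q : Finset D) (err : D → ℝ) (z : ι → D → ℝ)
    (h1 : ∑ i ∈ F, (∑ a ∈ Q, err a * z i a) * u i = 0)
    (h2 : ∑ i ∈ F, (dd i * (1 - 2 * c i)) * u i = 0)
    (h3 : ∑ a ∈ Q, (∑ i ∈ F, u i * z i a) ^ 2 ≤ 4 * ∑ i ∈ F, dd i * u i ^ 2) :
    ∑ a ∈ Q, (err a + δ * ∑ i ∈ F, u i * z i a) ^ 2
      ≤ ∑ a ∈ Q, err a ^ 2 + 4 * (Yd R dd c - Yd R dd (fun i => c i + δ * u i)) := by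
  set bu : D → ℝ := fun a => ∑ i ∈ F, u i * z i a with hbu
  have hfirst : ∑ a ∈ Q, err a * bu a = 0 := by
    rw [← h1]
    simp only [hbu, Finset.mul_sum, Finset.sum_mul]
    rw [Finset.sum_comm]
    refine Finset.sum_congr rfl (fun a _ => Finset.sum_congr rfl (fun i _ => ?_))
    ring
  have hsq : ∑ a ∈ Q, (err a + δ * bu a) ^ 2
      = ∑ a ∈ Q, err a ^ 2 + δ ^ 2 * ∑ a ∈ Q, bu a ^ 2 := by
    have : ∀ a, (err a + δ * bu a) ^ 2 = err a ^ 2 + 2 * δ * (err a * bu a) + δ ^ 2 * bu a ^ 2 := by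
      intro a; ring
    simp_rw [this]
    rw [Finset.sum_add_distrib, Finset.sum_add_distrib, ← Finset.mul_sum, ← Finset.mul_sum,
      hfirst]
    ring
  have hY : Yd R dd (fun i => c i + δ * u i) = Yd R dd c - δ ^ 2 * ∑ i ∈ F, dd i * u i ^ 2 := by
    have e2 : ∑ i ∈ R, dd i * u i ^ 2 = ∑ i ∈ F, dd i * u i ^ 2 := by
      refine (Finset.sum_subset hFR (fun i _ hi => ?_)).symm
      rw [hu0 i hi]; ring
    have e3 : ∑ i ∈ R, (dd i * (1 - 2 * c i)) * u i = ∑ i ∈ F, (dd i * (1 - 2 * c i)) * u i := by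
      refine (Finset.sum_subset hFR (fun i _ hi => ?_)).symm
      rw [hu0 i hi]; ring
    have e4 : Yd R dd (fun i => c i + δ * u i) = Yd R dd c + δ * ∑ i ∈ R, (dd i * (1 - 2 * c i)) * u i
        - δ ^ 2 * ∑ i ∈ R, dd i * u i ^ 2 := by
      simp only [Yd, Finset.mul_sum]
      rw [← Finset.sum_add_distrib, ← Finset.sum_sub_distrib]
      refine Finset.sum_congr rfl (fun i _ => ?_)
      ring
    rw [e4, e3, h2, e2]
    ring
  have hδ2 : 0 ≤ δ ^ 2 := sq_nonneg δ
  have := mul_le_mul_of_nonneg_left h3 hδ2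
  rw [hsq, hY]
  nlinarith

variable [DecidableEq ι] [Fintype D]

/-- The mass of an atom on the low block. -/
noncomputable def eps (z : ι → D → ℝ) (lo : Finset D) (i : ι) : ℝ := ∑ a ∈ lo, z i a ^ 2

/-- **Walk with two clocks.**  The number of fractional coordinates can be reduced to `N`, keeping
the functionals `Φ` exact and paying in each of two blocks at most four times the drop of the
corresponding variance. -/
theorem walk_reduce₂ {J : Type} [Fintype J] (R : Finset ι) (Φ : J → ι → ℝ) (z : ι → D → ℝ)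
    (hz : ∀ i ∈ R, ∑ a, z i a ^ 2 ≤ 1) (lo : Finset D) (N : ℕ)
    (hN : 2 * (Fintype.card J + 4) ≤ N) :
    ∀ (n : ℕ) (c : ι → ℝ) (err err' : D → ℝ), (frac R c).card = n →
      (∀ i ∈ R, 0 ≤ c i ∧ c i ≤ 1) →
      ∃ c' : ι → ℝ, (∀ i ∈ R, 0 ≤ c' i ∧ c' i ≤ 1) ∧ (∀ i ∈ R, i ∉ frac R c → c' i = c i) ∧
        (∀ f, ∑ i ∈ R, Φ f i * (c' i - c i) = 0) ∧ (frac R c').card ≤ N ∧
        ∑ a, (err a + ∑ i ∈ R, (c' i - c i) * z i a) ^ 2
          ≤ ∑ a, err a ^ 2 + 4 * (Yd R (fun _ => 1) c - Yd R (fun _ => 1) c') ∧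
        ∑ a ∈ lo, (err' a + ∑ i ∈ R, (c' i - c i) * z i a) ^ 2
          ≤ ∑ a ∈ lo, err' a ^ 2 + 4 * (Yd R (eps z lo) c - Yd R (eps z lo) c') := by
  intro n
  induction n using Nat.strong_induction_on with
  | _ n ih =>
    intro c err err' hn hc
    by_cases hcard : n ≤ N
    · refine ⟨c, hc, fun _ _ _ => rfl, fun f => by simp, by omega, by simp, by simp⟩
    push Not at hcard
    set F := frac R c with hF
    have hFR : F ⊆ R := Finset.filter_subset _ _
    have hFfrac : ∀ i ∈ F, 0 < c i ∧ c i < 1 := fun i hi => (mem_frac.mp hi).2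
    have hFcard : F.card = n := hn
    have hFne : F.Nonempty := Finset.card_pos.mp (by omega)
    -- the extended family of functionals
    let Φ' : J ⊕ Fin 4 → ι → ℝ := fun f i =>
      match f with
      | Sum.inl f => Φ f i
      | Sum.inr 0 => ∑ a, err a * z i a
      | Sum.inr 1 => ∑ a ∈ lo, err' a * z i a
      | Sum.inr 2 => 1 * (1 - 2 * c i)
      | Sum.inr 3 => eps z lo i * (1 - 2 * c i)
    have hcardJ : 2 * Fintype.card (J ⊕ Fin 4) ≤ F.card := by
      simp only [Fintype.card_sum, Fintype.card_fin]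
      omega
    obtain ⟨u, hu0, huex, huΦ, huQ₁, huQ₂⟩ := exists_direction₂ F hFne Φ' hcardJ z
      (fun i hi => hz i (hFR hi)) lo
    obtain ⟨δ, hδ, hrange, i0, hi0F, hi0⟩ := exists_step F c u hFfrac huex
    set c₁ : ι → ℝ := fun i => c i + δ * u i with hc₁
    have hc₁off : ∀ i, i ∉ F → c₁ i = c i := fun i hi => by simp [hc₁, hu0 i hi]
    have hc₁range : ∀ i ∈ R, 0 ≤ c₁ i ∧ c₁ i ≤ 1 := by
      intro i hi
      by_cases hiF : i ∈ F
      · exact hrange i hiF
      · rw [hc₁off i hiF]; exact hc i hi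
    have hsub : frac R c₁ ⊂ F := by
      refine Finset.ssubset_iff_subset_ne.mpr ⟨?_, ?_⟩
      · intro i hi
        obtain ⟨hiR, h1, h2⟩ := mem_frac.mp hi
        by_contra hiF
        rw [hc₁off i hiF] at h1 h2
        exact hiF (mem_frac.mpr ⟨hiR, h1, h2⟩)
      · intro heq
        have hmem : i0 ∈ frac R c₁ := by rw [heq]; exact hi0F
        obtain ⟨_, h1, h2⟩ := mem_frac.mp hmem
        rcases hi0 with h | h
        · have : c₁ i0 = 0 := h
          linarith
        · have : c₁ i0 = 1 := h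
          linarith
    have hlt : (frac R c₁).card < n := by
      rw [← hFcard]; exact Finset.card_lt_card hsub
    set bu : D → ℝ := fun a => ∑ i ∈ F, u i * z i a with hbu
    obtain ⟨c', hc'range, hc'fix, hc'Φ, hc'card, hc'1, hc'2⟩ := ih _ hlt c₁
      (fun a => err a + δ * bu a) (fun a => err' a + δ * bu a) rfl hc₁range
    -- moving sums from `R` to `F`
    have hRF : ∀ g : ι → ℝ, ∑ i ∈ R, u i * g i = ∑ i ∈ F, u i * g i := by
      intro g
      refine (Finset.sum_subset hFR (fun i _ hi => ?_)).symm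
      rw [hu0 i hi, zero_mul]
    have hstep : ∀ g : ι → ℝ, ∑ i ∈ R, (c' i - c i) * g i
        = ∑ i ∈ R, (c' i - c₁ i) * g i + δ * ∑ i ∈ F, u i * g i := by
      intro g
      rw [← hRF, Finset.mul_sum, ← Finset.sum_add_distrib]
      refine Finset.sum_congr rfl (fun i _ => ?_)
      simp only [hc₁]
      ring
    have hbueq : ∀ a, ∑ i ∈ R, (c' i - c i) * z i a
        = ∑ i ∈ R, (c' i - c₁ i) * z i a + δ * bu a := fun a => hstep (fun i => z i a)
    have hQ₀ : ∑ a ∈ (Finset.univ : Finset D), (∑ i ∈ F, u i * z i a) ^ 2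
        ≤ 4 * ∑ i ∈ F, (fun _ : ι => (1 : ℝ)) i * u i ^ 2 := by
      simpa using huQ₁
    have hcl₁ := clock_step R F hFR c u (fun _ => 1) hu0 δ Finset.univ err z
      (huΦ (Sum.inr 0)) (huΦ (Sum.inr 2)) hQ₀
    have hcl₂ := clock_step R F hFR c u (eps z lo) hu0 δ lo err' z
      (huΦ (Sum.inr 1)) (huΦ (Sum.inr 3)) huQ₂
    refine ⟨c', hc'range, ?_, ?_, hc'card, ?_, ?_⟩
    · intro i hi hiF
      rw [hc'fix i hi (fun h => hiF (hsub.1 h)), hc₁off i hiF]
    · intro f
      have h1 := hc'Φ f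
      have h2 := huΦ (Sum.inl f)
      have h3 := hstep (Φ f)
      have e1 : ∑ i ∈ R, Φ f i * (c' i - c i) = ∑ i ∈ R, (c' i - c i) * Φ f i :=
        Finset.sum_congr rfl (fun i _ => mul_comm _ _)
      have e2 : ∑ i ∈ R, Φ f i * (c' i - c₁ i) = ∑ i ∈ R, (c' i - c₁ i) * Φ f i :=
        Finset.sum_congr rfl (fun i _ => mul_comm _ _)
      have e3 : ∑ i ∈ F, Φ f i * u i = ∑ i ∈ F, u i * Φ f i :=
        Finset.sum_congr rfl (fun i _ => mul_comm _ _)
      have h2' : ∑ i ∈ F, Φ f i * u i = 0 := h2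
      rw [e1, h3, ← e2, h1, ← e3, h2']
      ring
    · have e1 : ∀ a, err a + ∑ i ∈ R, (c' i - c i) * z i a
          = (err a + δ * bu a) + ∑ i ∈ R, (c' i - c₁ i) * z i a := by
        intro a; rw [hbueq a]; ring
      simp_rw [e1]
      linarith
    · have e1 : ∀ a, err' a + ∑ i ∈ R, (c' i - c i) * z i a
          = (err' a + δ * bu a) + ∑ i ∈ R, (c' i - c₁ i) * z i a := by
        intro a; rw [hbueq a]; ring
      simp_rw [e1]
      linarith

end Walk

end Vale.Agent.Lib.P262L
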